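import Mathlib

/-!
Block W: the main part and the error polynomial of the drift of `W = tr Z₊² Z₋²`
(definitions only; `W_drift` in `Drift.lean`).

Parameters: `b` (operator norms), `t² ≥ T₂`, `s² ≥ Σ Z_aa²`, `v² ≥ Σ (w_a-1)²`, `w² ≥ Σ w_a²`,
`cw² ≥ W`, `e² ≥ #` excluded pairs, `G ≥` excluded partners of a stub, `Hr ≥` absolute row sums of
the tilt, `rh ≥` operator norm of the tilt, `ν² = N`, `τ ≥ |T₁|`, `δ ∈ (0,1]`, `δi = δ⁻¹`.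
-/

noncomputable section

namespace Vale.Agent.P049.TS.Wd

/-- main part: `N = #F`, `κ = tr Z₊Z₋`, `T, T' = tr Z_±²`, `e₁ = tr Z₊²Z₋ - tr Z₊`, … -/
def mainW (N κ T T' e₁ e₂ W : ℝ) : ℝ :=
  -4 * N * W + 4 * (κ - N) * W + 2 * (T + T') * (W - 2 * κ + N) + 4 * (e₁ * e₂)

/-- error of one first order sum -/
def EU (b t s cw e rh τ : ℝ) : ℝ :=
  τ * (b * cw ^ 2 + t * cw) + rh * cw * (b * cw + t)
    + (e + 3 * (t + s ^ 2)) * (b * cw ^ 2 + b * cw)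
    + (e * s + 6 * (t + s ^ 2) * s) * (b * cw ^ 2 + b * cw) + rh * s * (3 * cw ^ 2 + 3 * cw)

/-- error of `Σ tt`; `x ≥ ‖X‖`, `xd ≥ ‖diag X‖` -/
def ET (b t s w cw e rh ν x xd : ℝ) : ℝ :=
  e * (xd * (cw * w)) + rh * (5 * ν * (2 * b * cw)) + 42 / 5 * ((t + s ^ 2) * (xd * (cw * w)))
    + 216 / 25 * (s * (xd * (b ^ 2 * cw) + x * (cw * w)))
    + 96 / 25 * (s ^ 2 * (xd * (cw * w) + x * (b ^ 2 * cw))) + 243 / 50 * (x * (b ^ 2 * cw))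

/-- error of the product term -/
def EPr (b t s v cw e rh : ℝ) : ℝ :=
  e * (2 * (1 + v) * cw ^ 2 + 2 * s ^ 2) + rh * (8 * cw ^ 2 + 2 * s ^ 2)
    + 3 / 2 * (b * cw + t) ^ 2

/-- `Σ be2 · |x_a|²` -/
def EB (s v x : ℝ) : ℝ :=
  3 / 2 * ((16 * ((1 + v) ^ 2 + s ^ 4 * (1 + v)) + 26 / 5 * (s ^ 2 * (1 + v))) * x ^ 2)

/-- `Σ rho` -/
def ER (t s v x xd : ℝ) : ℝ :=
  3 / 2 * (8 * ((1 + v) + s ^ 4) * x ^ 2 + 64 / 25 * (s ^ 2 * x ^ 2)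
    + 81 / 25 * (13 / 2 * (t ^ 2 * xd ^ 2) + 26 / 5 * (s ^ 2 * (1 + v) * xd ^ 2)
      + (13 / 2 + 26 / 5 * s ^ 2) * (1 + v) * x ^ 2)
    + 64 / 25 * (s ^ 2 * (13 / 2 + 26 / 5 * s ^ 2) * (1 + v) * (x ^ 2 + xd ^ 2)))

/-- `Σ X_aa² al2 al2' + X_ab² al2 al2'` -/
def EQ (s v w x xd : ℝ) : ℝ :=
  3 / 2 * (169 / 4 * (w ^ 2 * xd ^ 2) + 70 * (s ^ 2 * (1 + v) ^ 2 * xd ^ 2)
    + 28 * (s ^ 4 * (1 + v) ^ 2 * xd ^ 2)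
    + (13 / 2 + 26 / 5 * s ^ 2) ^ 2 * (1 + v) ^ 2 * x ^ 2)

/-- **the error polynomial** with `x = cw + 2t + ν`, `xd = 2w + 2ν` -/
def errW (b t s v w cw e G Hr rh ν τ δ δi : ℝ) : ℝ :=
  4 * (δ * ν ^ 2 + G + Hr) * cw ^ 2
    + 16 * δ * (t ^ 2 * (cw + 2 * t + ν) ^ 2)
    + 16 * (1 + 4 * δ) * (Hr * (cw + 2 * t + ν) ^ 2)
    + 8 * EU b t s cw e rh τ
    + 6 * (b ^ 2 * (cw + 2 * t + ν) ^ 2)
    + 32 * (1 + δi) * EB s v (cw + 2 * t + ν)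
    + 24 * δi * ER t s v (cw + 2 * t + ν) (2 * w + 2 * ν)
    + 3 * (ν ^ 2 * w ^ 2 + cw ^ 2)
    + 4 * ET b t s w cw e rh ν (cw + 2 * t + ν) (2 * w + 2 * ν)
    + 4 * EPr b t s v cw e rh
    + 16 * (1 + δi) * EQ s v w (cw + 2 * t + ν) (2 * w + 2 * ν)

end Vale.Agent.P049.TS.Wd
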