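import Vale.Agent.P049.TS.Tilt.Tk
import Vale.Agent.P049.TS.Drift.Arr
import Vale.Agent.P049.TS.Final.AdmOK

/-!
Block W: the tilt matrix `hT` as an operator, its rows, the product lemma with the weights
`1 - hT`, and the number of non-admissible partners of one stub.
-/

set_option linter.unusedSectionVars false

namespace Vale.Agent.P049.TS.Wd4

open Matrix Finset

variable {ι : Type*} [Fintype ι] [DecidableEq ι]

/-! ### operator norms -/

theorem opB_add {A B : Matrix ι ι ℝ} {x y : ℝ} (hx : 0 ≤ x) (hy : 0 ≤ y) (hA : Mat.OpB A x)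
    (hB : Mat.OpB B y) : Mat.OpB (A + B) (x + y) := by
  intro v
  have h1 := hA v
  have h2 := hB v
  have h3 := Mat.abs_dot_le (A *ᵥ v) (B *ᵥ v)
  have h4 := hA.sqrt_dot_le hx v
  have h5 := hB.sqrt_dot_le hy v
  have h6 : √((A *ᵥ v) ⬝ᵥ (A *ᵥ v)) * √((B *ᵥ v) ⬝ᵥ (B *ᵥ v)) ≤ x * y * (v ⬝ᵥ v) := by
    calc _ ≤ (x * √(v ⬝ᵥ v)) * (y * √(v ⬝ᵥ v)) :=
          mul_le_mul h4 h5 (Real.sqrt_nonneg _) (mul_nonneg hx (Real.sqrt_nonneg _))
      _ = x * y * (√(v ⬝ᵥ v) * √(v ⬝ᵥ v)) := by ring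
      _ = _ := by rw [Real.mul_self_sqrt (Mat.dot_self_nonneg v)]
  have h7 := le_abs_self ((A *ᵥ v) ⬝ᵥ (B *ᵥ v))
  rw [Matrix.add_mulVec, dotProduct_add, add_dotProduct, add_dotProduct,
    dotProduct_comm (B *ᵥ v) (A *ᵥ v)]
  nlinarith

theorem opB_neg {A : Matrix ι ι ℝ} {x : ℝ} (hA : Mat.OpB A x) : Mat.OpB (-A) x := by
  intro v
  rw [Matrix.neg_mulVec, neg_dotProduct_neg]
  exact hA v

theorem opB_smul {A : Matrix ι ι ℝ} {x : ℝ} (c : ℝ) (hA : Mat.OpB A x) :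
    Mat.OpB (c • A) (c * x) := by
  intro v
  rw [Matrix.smul_mulVec, smul_dotProduct, dotProduct_smul, smul_eq_mul, smul_eq_mul]
  have := mul_le_mul_of_nonneg_left (hA v) (sq_nonneg c)
  calc _ = c ^ 2 * ((A *ᵥ v) ⬝ᵥ (A *ᵥ v)) := by ring
    _ ≤ _ := this
    _ = _ := by ring

/-- compression to a subset does not increase the operator norm -/
theorem opB_compress {A B : Matrix ι ι ℝ} {x : ℝ} (hA : Mat.OpB A x) (g : Finset ι)
    (hB : ∀ a b, B a b = if a ∈ g ∧ b ∈ g then A a b else 0) : Mat.OpB B x := by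
  intro v
  set w : ι → ℝ := fun b => if b ∈ g then v b else 0 with hw
  have e1 : ∀ a, (B *ᵥ v) a = if a ∈ g then (A *ᵥ w) a else 0 := by
    intro a
    simp only [Matrix.mulVec, dotProduct, hB, hw]
    by_cases ha : a ∈ g
    · simp only [ha, true_and, if_true]
      refine Finset.sum_congr rfl fun b _ => ?_
      by_cases hb : b ∈ g
      · simp only [hb, if_true]
      · simp only [hb, if_false, zero_mul, mul_zero]
    · simp only [ha, false_and, if_false, zero_mul, Finset.sum_const_zero]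
  have h1 : (B *ᵥ v) ⬝ᵥ (B *ᵥ v) ≤ (A *ᵥ w) ⬝ᵥ (A *ᵥ w) := by
    unfold dotProduct
    refine Finset.sum_le_sum fun a _ => ?_
    rw [e1 a]
    by_cases ha : a ∈ g
    · simp only [ha, if_true, le_refl]
    · simp only [ha, if_false, mul_zero]
      exact mul_self_nonneg _
  have h2 : w ⬝ᵥ w ≤ v ⬝ᵥ v := by
    unfold dotProduct
    refine Finset.sum_le_sum fun a _ => ?_
    simp only [hw]
    by_cases ha : a ∈ g
    · simp only [ha, if_true, le_refl]
    · simp only [ha, if_false, mul_zero]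
      exact mul_self_nonneg _
  exact h1.trans ((hA w).trans (mul_le_mul_of_nonneg_left h2 (sq_nonneg x)))

/-! ### the tilt -/

section Tilt

variable {F : Finset ι} {forb : ι → ι → Prop} {Zp Zm : Matrix ι ι ℝ} {lam b t s v cw Δ : ℝ}

/-- `‖hT‖ ≤ λ (2b) + rbs` (the strong form) -/
theorem opB_hT' (h : Tilt.Two F Zp Zm b t s v cw) (hT : Tilt.TPar F forb lam Δ) :
    Mat.OpB (Tilt.hT F forb Zp Zm lam) (lam * (2 * b) + Tilt.rbs lam Δ s) := by
  classical
  have h1 : Mat.OpB (Zp + Zm) (b + b) := opB_add h.b0 h.b0 h.p.opB h.m.opB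
  have h2 : Mat.OpB (Zp + Zm - Tilt.RT F Zp Zm) (b + b) := by
    refine opB_compress h1 (Tilt.gd F Zp Zm) fun a c => ?_
    rw [Matrix.sub_apply, Matrix.add_apply]
    split_ifs with hg
    · rw [Tilt.RT_apply_good hg, sub_zero]
    · rw [Tilt.RT_apply_bad hg, sub_self]
  have h3 := opB_smul lam h2
  have h4 := opB_neg (h.opE hT)
  have h5 := opB_add (mul_nonneg hT.lam0.le (add_nonneg h.b0 h.b0)) (Tilt.rbs_nonneg hT) h3 h4
  rw [← sub_eq_add_neg, ← Tilt.hT_eq] at h5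
  rwa [two_mul]

theorem rhT_nonneg (h : Tilt.Two F Zp Zm b t s v cw) (hT : Tilt.TPar F forb lam Δ) :
    0 ≤ lam * (2 * b) + Tilt.rbs lam Δ s := by
  have := h.b0
  have := hT.lam0
  have := Tilt.rbs_nonneg (s := s) hT
  positivity

/-- `‖hT‖ ≤ λ (2b + 9/4 v) + rbs` -/
theorem opB_hT (h : Tilt.Two F Zp Zm b t s v cw) (hT : Tilt.TPar F forb lam Δ) :
    Mat.OpB (Tilt.hT F forb Zp Zm lam) (lam * (2 * b + 9 / 4 * v) + Tilt.rbs lam Δ s) := by
  refine (opB_hT' h hT).mono (rhT_nonneg h hT) ?_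
  have := mul_nonneg hT.lam0.le h.v0
  nlinarith

/-- the absolute row sums of `hT` -/
theorem row_hT (hl : 0 < lam) (hp : Zp.IsSymm) (hm : Zm.IsSymm) {ν : ℝ} (hν : 0 ≤ ν)
    (hF : (F.card : ℝ) ≤ ν ^ 2) (a : ι) :
    ∑ c ∈ F, |Tilt.hT F forb Zp Zm lam a c| ≤ 4 * lam * ν := by
  classical
  by_cases ha : a ∈ Tilt.gd F Zp Zm
  · have h1 : ∑ c ∈ F, |Zp a c + Zm a c| ≤ ν * 4 := by
      refine (sum_abs_le_sqrt_card F (fun c => Zp a c + Zm a c)).trans ?_
      have h2 : √(F.card : ℝ) ≤ ν := by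
        rw [← Real.sqrt_sq hν]
        exact Real.sqrt_le_sqrt hF
      have h3 : √(∑ c ∈ F, (Zp a c + Zm a c) ^ 2) ≤ 4 := by
        rw [show (4 : ℝ) = √(4 ^ 2) by rw [Real.sqrt_sq (by norm_num)]]
        refine Real.sqrt_le_sqrt ?_
        refine ((Finset.sum_le_sum_of_subset_of_nonneg (Finset.subset_univ F)
          fun _ _ _ => sq_nonneg _).trans (Tilt.rowH_good_le hp hm ha)).trans ?_
        norm_num
      exact mul_le_mul h2 h3 (Real.sqrt_nonneg _) hν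
    calc ∑ c ∈ F, |Tilt.hT F forb Zp Zm lam a c| ≤ ∑ c ∈ F, lam * |Zp a c + Zm a c| :=
          Finset.sum_le_sum fun c _ => Tilt.abs_hT_le hl a c
      _ = lam * ∑ c ∈ F, |Zp a c + Zm a c| := by rw [Finset.mul_sum]
      _ ≤ lam * (ν * 4) := mul_le_mul_of_nonneg_left h1 hl.le
      _ = _ := by ring
  · have : ∑ c ∈ F, |Tilt.hT F forb Zp Zm lam a c| = 0 := by
      refine Finset.sum_eq_zero fun c _ => ?_
      rw [Tilt.hT_apply_bad (fun h => ha h.1), abs_zero]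
    rw [this]
    positivity

/-- the square row sums of `hT` -/
theorem row_hT_sq (hl : 0 < lam) (hp : Zp.IsSymm) (hm : Zm.IsSymm) (a : ι) :
    ∑ c, Tilt.hT F forb Zp Zm lam a c ^ 2 ≤ (4 * lam) ^ 2 := by
  classical
  by_cases ha : a ∈ Tilt.gd F Zp Zm
  · calc ∑ c, Tilt.hT F forb Zp Zm lam a c ^ 2 ≤ ∑ c, lam ^ 2 * (Zp a c + Zm a c) ^ 2 := by
          refine Finset.sum_le_sum fun c _ => ?_
          have := pow_le_pow_left₀ (abs_nonneg _) (Tilt.abs_hT_le (F := F) (forb := forb)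
            (Zp := Zp) (Zm := Zm) hl a c) 2
          rwa [sq_abs, mul_pow, sq_abs] at this
      _ = lam ^ 2 * ∑ c, (Zp a c + Zm a c) ^ 2 := by rw [Finset.mul_sum]
      _ ≤ lam ^ 2 * 16 := mul_le_mul_of_nonneg_left (Tilt.rowH_good_le hp hm ha) (sq_nonneg _)
      _ = _ := by ring
  · have : ∑ c, Tilt.hT F forb Zp Zm lam a c ^ 2 = 0 := by
      refine Finset.sum_eq_zero fun c _ => ?_
      rw [Tilt.hT_apply_bad (fun h => ha h.1)]
      norm_num
    rw [this]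
    positivity

/-- `hT` lives on admissible pairs of good stubs -/
theorem hT_eq_zero {a c : ι} (h : (a, c) ∉ adm F forb Zp Zm ∨ a ∉ Tilt.gd F Zp Zm ∨
    c ∉ Tilt.gd F Zp Zm) : Tilt.hT F forb Zp Zm lam a c = 0 := by
  rcases h with h | h | h
  · exact Tilt.hT_apply_eq_zero h
  · exact Tilt.hT_apply_bad fun h' => h h'.1
  · exact Tilt.hT_apply_bad fun h' => h h'.2

end Tilt

/-! ### the product lemma -/

/-- `|Σ_P h_ab u_a v_b| ≤ ‖h‖ |u_g| |v_g|` for `h` supported on `P ∩ g × g` -/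
theorem abs_sum_h_prod_le {P : Finset (ι × ι)} {h : Matrix ι ι ℝ} {g : Finset ι} {rh : ℝ}
    (hrh : 0 ≤ rh) (hh : Mat.OpB h rh)
    (h0 : ∀ a b, ((a, b) ∉ P ∨ a ∉ g ∨ b ∉ g) → h a b = 0) (u v : ι → ℝ) :
    |∑ p ∈ P, h p.1 p.2 * (u p.1 * v p.2)| ≤ rh * (D12.nr g u * D12.nr g v) := by
  set u' : ι → ℝ := fun a => if a ∈ g then u a else 0 with hu'
  set v' : ι → ℝ := fun a => if a ∈ g then v a else 0 with hv'
  have e1 : ∑ p ∈ P, h p.1 p.2 * (u p.1 * v p.2) = u' ⬝ᵥ (h *ᵥ v') := by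
    have : u' ⬝ᵥ (h *ᵥ v') = ∑ p : ι × ι, h p.1 p.2 * (u p.1 * v p.2) := by
      rw [Fintype.sum_prod_type]
      simp only [dotProduct, Matrix.mulVec]
      refine Finset.sum_congr rfl fun a _ => ?_
      rw [Finset.mul_sum]
      refine Finset.sum_congr rfl fun b _ => ?_
      simp only [hu', hv']
      by_cases ha : a ∈ g
      · by_cases hb : b ∈ g
        · simp only [ha, hb, if_true]; ring
        · rw [h0 a b (Or.inr (Or.inr hb))]; ring
      · rw [h0 a b (Or.inr (Or.inl ha))]; ring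
    rw [this]
    refine Finset.sum_subset (Finset.subset_univ P) fun p _ hp => ?_
    rw [h0 p.1 p.2 (Or.inl hp), zero_mul]
  have e2 : ∀ w : ι → ℝ, (fun a => if a ∈ g then w a else 0) ⬝ᵥ
      (fun a => if a ∈ g then w a else 0) = ∑ a ∈ g, w a ^ 2 := by
    intro w
    unfold dotProduct
    rw [← Finset.sum_subset (Finset.subset_univ g)]
    · refine Finset.sum_congr rfl fun a ha => ?_
      simp only [ha, if_true]; ring
    · intro a _ ha
      simp only [ha, if_false, mul_zero]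
  have h1 := hh.abs_bilin_le hrh u' v'
  rw [e1]
  have e3 : √(u' ⬝ᵥ u') = D12.nr g u := by rw [hu', e2]; rfl
  have e4 : √(v' ⬝ᵥ v') = D12.nr g v := by rw [hv', e2]; rfl
  rwa [e3, e4] at h1

/-- **the product lemma**: `Σ_P (1 - h_ab) u_a v_b = (Σ_F u) (Σ_F v) ± (e |u| |v| + ‖h‖ |u_g| |v_g|)` -/
theorem prod_hT {F : Finset ι} {P : Finset (ι × ι)} (hP : P ⊆ F ×ˢ F) {e : ℝ} (he : 0 ≤ e)
    (hcard : ((((F ×ˢ F) \ P).card : ℕ) : ℝ) ≤ e ^ 2) {h : Matrix ι ι ℝ} {g : Finset ι} {rh : ℝ}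
    (hrh : 0 ≤ rh) (hh : Mat.OpB h rh)
    (h0 : ∀ a b, ((a, b) ∉ P ∨ a ∉ g ∨ b ∉ g) → h a b = 0) (u v : ι → ℝ) :
    |∑ p ∈ P, (1 - h p.1 p.2) * (u p.1 * v p.2) - (∑ a ∈ F, u a) * (∑ b ∈ F, v b)| ≤
      e * (D12.nr F u * D12.nr F v) + rh * (D12.nr g u * D12.nr g v) := by
  have h1 := D12.abs_sum_adm_sub_le hP (fun a b => u a * v b)
  rw [D12.fr_prod, D12.sum_prod_full] at h1
  have h2 := abs_sum_h_prod_le hrh hh h0 u v
  have h3 : √(((F ×ˢ F) \ P).card : ℝ) ≤ e := by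
    rw [← Real.sqrt_sq he]
    exact Real.sqrt_le_sqrt hcard
  have h4 : √(((F ×ˢ F) \ P).card : ℝ) * (D12.nr F u * D12.nr F v) ≤
      e * (D12.nr F u * D12.nr F v) :=
    mul_le_mul_of_nonneg_right h3 (mul_nonneg (D12.nr_nonneg _ _) (D12.nr_nonneg _ _))
  have e1 : ∑ p ∈ P, (1 - h p.1 p.2) * (u p.1 * v p.2) =
      ∑ p ∈ P, u p.1 * v p.2 - ∑ p ∈ P, h p.1 p.2 * (u p.1 * v p.2) := by
    rw [← Finset.sum_sub_distrib]
    exact Finset.sum_congr rfl fun p _ => by ring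
  rw [e1]
  have h5 := h1.trans h4
  rw [abs_le] at h2 h5 ⊢
  constructor <;> linarith [h2.1, h2.2, h5.1, h5.2]

/-- the same with the two factors exchanged (`u` at the second stub) -/
theorem prod_hT' {F : Finset ι} {P : Finset (ι × ι)} (hP : P ⊆ F ×ˢ F) {e : ℝ} (he : 0 ≤ e)
    (hcard : ((((F ×ˢ F) \ P).card : ℕ) : ℝ) ≤ e ^ 2) {h : Matrix ι ι ℝ} {g : Finset ι} {rh : ℝ}
    (hrh : 0 ≤ rh) (hh : Mat.OpB h rh)
    (h0 : ∀ a b, ((a, b) ∉ P ∨ a ∉ g ∨ b ∉ g) → h a b = 0) (u v : ι → ℝ) :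
    |∑ p ∈ P, (1 - h p.1 p.2) * (u p.2 * v p.1) - (∑ a ∈ F, u a) * (∑ b ∈ F, v b)| ≤
      e * (D12.nr F u * D12.nr F v) + rh * (D12.nr g u * D12.nr g v) := by
  have := prod_hT hP he hcard hrh hh h0 v u
  simp only [mul_comm (v _) (u _)] at this
  rw [mul_comm (∑ a ∈ F, v a), mul_comm (D12.nr F v), mul_comm (D12.nr g v)] at this
  exact this

/-- **the product lemma for the tilt** -/
theorem prod_adm {F : Finset ι} {forb : ι → ι → Prop} {Zp Zm : Matrix ι ι ℝ}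
    {lam b t s v cw Δ e : ℝ} (h : Tilt.Two F Zp Zm b t s v cw) (hT : Tilt.TPar F forb lam Δ)
    (he : 0 ≤ e) (hcard : ((((F ×ˢ F) \ adm F forb Zp Zm).card : ℕ) : ℝ) ≤ e ^ 2)
    (x y : ι → ℝ) :
    |∑ p ∈ adm F forb Zp Zm, (1 - Tilt.hT F forb Zp Zm lam p.1 p.2) * (x p.1 * y p.2)
      - (∑ a ∈ F, x a) * (∑ b ∈ F, y b)| ≤
      e * (D12.nr F x * D12.nr F y) + (lam * (2 * b) + Tilt.rbs lam Δ s) *
        (D12.nr (Tilt.gd F Zp Zm) x * D12.nr (Tilt.gd F Zp Zm) y) :=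
  prod_hT (adm_subset F forb Zp Zm) he hcard (rhT_nonneg h hT) (opB_hT' h hT)
    (fun _ _ h => hT_eq_zero h) x y

/-! ### the number of non-admissible partners of one stub -/

section Partners

variable {F : Finset ι} {forb : ι → ι → Prop} {Zp Zm : Matrix ι ι ℝ} {lam b t s v cw Δ : ℝ}

theorem diag_sq_le_of_Vd {Z : Matrix ι ι ℝ} (hv : 0 ≤ v) (hV : Tilt.Vd F Z ≤ v ^ 2) {a : ι}
    (ha : a ∈ F) : (Z ^ 2) a a ≤ 1 + v := by
  have h1 : ((Z ^ 2) a a - 1) ^ 2 ≤ v ^ 2 :=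
    (Finset.single_le_sum (f := fun a => ((Z ^ 2) a a - 1) ^ 2) (fun _ _ => sq_nonneg _) ha).trans
      hV
  have := (abs_le_of_sq_le_sq' h1 hv).2
  linarith

theorem mj2_nonneg (a c : ι) : 0 ≤ mj2 forb Zp Zm a c := by
  classical
  unfold mj2
  have i1 : (0 : ℝ) ≤ if a = c then 1 else 0 := by split_ifs <;> norm_num
  have i2 : (0 : ℝ) ≤ if forb a c then 1 else 0 := by split_ifs <;> norm_num
  positivity

/-- the row sums of the squared majorant of the non-admissible pairs -/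
theorem sum_mj2_le' (h : Tilt.Two F Zp Zm b t s v cw) (hT : Tilt.TPar F forb lam Δ) {a : ι}
    (ha : a ∈ F) :
    ∑ c ∈ F, mj2 forb Zp Zm a c ≤ 1 + Δ + 128 * (1 + v) + 128 * s ^ 4 := by
  classical
  have key : ∀ {Z : Matrix ι ι ℝ}, Tilt.One F Z b t s v →
      ∑ c ∈ F, (64 * Z a c ^ 2 + 64 * (Z a a ^ 2 * Z c c ^ 2)) ≤ 64 * (1 + v) + 64 * s ^ 4 := by
    intro Z hZ
    rw [Finset.sum_add_distrib, ← Finset.mul_sum, ← Finset.mul_sum, ← Finset.mul_sum]
    have h1 : ∑ c ∈ F, Z a c ^ 2 ≤ (Z ^ 2) a a := by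
      rw [Mat.sq_diag_eq_sum hZ.symm]
      exact Finset.sum_le_sum_of_subset_of_nonneg (Finset.subset_univ F)
        fun _ _ _ => sq_nonneg _
    have h2 := diag_sq_le_of_Vd h.v0 hZ.V ha
    have h3 : Z a a ^ 2 ≤ s ^ 2 :=
      (Finset.single_le_sum (f := fun c => Z c c ^ 2) (fun _ _ => sq_nonneg _) ha).trans hZ.S
    have h4 : Z a a ^ 2 * ∑ c ∈ F, Z c c ^ 2 ≤ s ^ 2 * s ^ 2 :=
      mul_le_mul h3 hZ.S (Finset.sum_nonneg fun _ _ => sq_nonneg _) (sq_nonneg _)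
    nlinarith
  have k1 := key h.p
  have k2 := key h.m
  have e1 : ∑ c ∈ F, (if a = c then (1 : ℝ) else 0) ≤ 1 := by
    rw [Finset.sum_ite_eq, if_pos ha]
  have e2 : ∑ c ∈ F, (if forb a c then (1 : ℝ) else 0) ≤ Δ := by
    rw [Finset.sum_ite, Finset.sum_const_zero, add_zero, Finset.sum_const, nsmul_eq_mul, mul_one]
    exact hT.card a ha
  unfold mj2
  rw [Finset.sum_add_distrib, Finset.sum_add_distrib, Finset.sum_add_distrib]
  linarith

open Classical in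
/-- the number of non-admissible partners -/
theorem card_partners_le (h : Tilt.Two F Zp Zm b t s v cw) (hT : Tilt.TPar F forb lam Δ) {a : ι}
    (ha : a ∈ F) :
    (((F.filter fun c => (a, c) ∉ adm F forb Zp Zm).card : ℕ) : ℝ) ≤
      1 + Δ + 128 * (1 + v) + 128 * s ^ 4 := by
  refine le_trans ?_ (sum_mj2_le' h hT ha)
  rw [Finset.card_eq_sum_ones, Nat.cast_sum]
  refine (Finset.sum_le_sum (g := fun c => mj2 forb Zp Zm a c) fun c hc => ?_).trans
    (Finset.sum_le_sum_of_subset_of_nonneg (Finset.filter_subset _ _) fun c _ _ =>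
      mj2_nonneg a c)
  have hc' := Finset.mem_filter.1 hc
  have := (one_le_mj (p := (a, c)) (forb := forb) (Zp := Zp) (Zm := Zm)
    (Finset.mem_sdiff.2 ⟨Finset.mem_product.2 ⟨ha, hc'.1⟩, hc'.2⟩)).2
  push_cast
  exact this

open Classical in
/-- the same for the second component -/
theorem card_partners_le' (h : Tilt.Two F Zp Zm b t s v cw) (hT : Tilt.TPar F forb lam Δ)
    {a : ι} (ha : a ∈ F) :
    (((F.filter fun c => (c, a) ∉ adm F forb Zp Zm).card : ℕ) : ℝ) ≤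
      1 + Δ + 128 * (1 + v) + 128 * s ^ 4 := by
  have e : (F.filter fun c => (c, a) ∉ adm F forb Zp Zm) =
      F.filter fun c => (a, c) ∉ adm F forb Zp Zm := by
    refine Finset.filter_congr fun c _ => ?_
    exact not_congr ⟨fun h' => Tilt.adm_symm h.p.symm h.m.symm hT.symm h',
      fun h' => Tilt.adm_symm h.p.symm h.m.symm hT.symm h'⟩
  rw [e]
  exact card_partners_le h hT ha

open Classical in
/-- **the weights of one row**: the total missing weight of the pairs `(a, ·)` is at most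
`(number of excluded partners) + 4 λ √N` -/
theorem row_missing_le (h : Tilt.Two F Zp Zm b t s v cw) (hT : Tilt.TPar F forb lam Δ) {ν : ℝ}
    (hν : 0 ≤ ν) (hF : (F.card : ℝ) ≤ ν ^ 2) {a : ι} (ha : a ∈ F) :
    |∑ c ∈ F.filter (fun c => (a, c) ∈ adm F forb Zp Zm),
      (1 - Tilt.hT F forb Zp Zm lam a c) - F.card| ≤
      1 + Δ + 128 * (1 + v) + 128 * s ^ 4 + 4 * lam * ν := by
  have h1 := card_partners_le h hT ha
  have h2 := row_hT (F := F) (forb := forb) hT.lam0 h.p.symm h.m.symm hν hF a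
  have e1 : ((F.filter fun c => (a, c) ∈ adm F forb Zp Zm).card : ℝ) +
      ((F.filter fun c => (a, c) ∉ adm F forb Zp Zm).card : ℝ) = F.card := by
    rw [← Nat.cast_add, Finset.card_filter_add_card_filter_not]
  rw [Finset.sum_sub_distrib, Finset.sum_const, nsmul_eq_mul, mul_one]
  have h3 : |∑ c ∈ F.filter (fun c => (a, c) ∈ adm F forb Zp Zm),
      Tilt.hT F forb Zp Zm lam a c| ≤ 4 * lam * ν := by
    refine (Finset.abs_sum_le_sum_abs _ _).trans (le_trans ?_ h2)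
    exact Finset.sum_le_sum_of_subset_of_nonneg (Finset.filter_subset _ _)
      fun _ _ _ => abs_nonneg _
  have h4 : (0 : ℝ) ≤ (F.filter fun c => (a, c) ∉ adm F forb Zp Zm).card := Nat.cast_nonneg _
  rw [abs_le] at h3 ⊢
  constructor <;> linarith [h3.1, h3.2]

end Partners

end Vale.Agent.P049.TS.Wd4
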