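import Vale.Agent.P049.TS.W.Lin
import Vale.Agent.P049.TS.W.HT4

/-!
Block W: the structure `Cx` for the tilt `hT` and the admissible pairs `adm`, and the tilt against
the first order array `Lm`.
-/

set_option linter.unusedSectionVars false

namespace Vale.Agent.P049.TS.Wd

open Matrix Finset

variable {ι : Type*} [Fintype ι] [DecidableEq ι]

variable {F : Finset ι} {forb : ι → ι → Prop} {Zp Zm A C : Matrix ι ι ℝ}
  {lam b t s v cw Δ e ν : ℝ}

/-- `fr F M ≤ y` from the squared Frobenius norm -/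
theorem fr_le_frob {M : Matrix ι ι ℝ} {y : ℝ} (hy : 0 ≤ y) (h : Mat.frob M ≤ y ^ 2) :
    D12.fr F M ≤ y := by
  unfold D12.fr
  rw [← Real.sqrt_sq hy]
  apply Real.sqrt_le_sqrt
  refine le_trans ?_ h
  have h1 : ∑ p ∈ F ×ˢ F, M p.1 p.2 ^ 2 ≤ ∑ p : ι × ι, M p.1 p.2 ^ 2 :=
    Finset.sum_le_sum_of_subset_of_nonneg (Finset.subset_univ _) fun _ _ _ => sq_nonneg _
  refine h1.trans (le_of_eq ?_)
  rw [Mat.frob, Fintype.sum_prod_type]

/-- **the data of the tilted average** -/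
theorem cx_adm (h2 : Tilt.Two F Zp Zm b t s v cw) (hT : Tilt.TPar F forb lam Δ) (he : 0 ≤ e)
    (hν : 0 ≤ ν) (hN : (F.card : ℝ) ≤ ν ^ 2)
    (hE : ((((F ×ˢ F) \ adm F forb Zp Zm).card : ℕ) : ℝ) ≤ e ^ 2) :
    Cx F (Tilt.gd F Zp Zm) Zp Zm (Tilt.hT F forb Zp Zm lam) (adm F forb Zp Zm) t s e
      (lam * (2 * b + 9 / 4 * v) + Tilt.rbs lam Δ s) (1 + Δ + 128 * (1 + v) + 128 * s ^ 4)
      (4 * lam * ν) where
  hA := h2.p.symm
  hC := h2.m.symm
  sub := adm_subset F forb Zp Zm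
  ok := fun p hp => by
    have := mem_adm.1 hp
    exact ⟨this.2.1, this.2.2.2.1, this.2.2.2.2⟩
  t0 := h2.t0
  s0 := h2.s0
  e0 := he
  rh0 := by
    have := h2.b0
    have := h2.v0
    have := hT.lam0
    have := Tilt.rbs_nonneg (s := s) hT
    positivity
  G0 := by
    have := h2.v0
    have := hT.Δ0
    have := h2.s0
    positivity
  Hr0 := by
    have := hT.lam0
    positivity
  card := hE
  half := fun a c => Tilt.abs_hT_le_half hT.lam0 a c
  hP := fun p hp => Tilt.hT_apply_eq_zero hp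
  hg := fun a c hac => by
    by_contra hcon
    exact hac (Tilt.hT_apply_bad hcon)
  gF := fun a ha => (Tilt.mem_gd.1 ha).1
  hs := Tilt.hT_isSymm h2.p.symm h2.m.symm hT.symm
  op := Wd4.opB_hT h2 hT
  deg := fun a ha => by
    classical
    refine le_trans (le_of_eq ?_) (Wd4.card_partners_le h2 hT ha)
    congr 1
    refine Finset.card_bij (fun p _ => p.2) (fun p hp => ?_) (fun p hp q hq hpq => ?_)
      (fun c hc => ?_)
    · have h1 := Finset.mem_filter.1 hp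
      have h3 := Finset.mem_sdiff.1 h1.1
      refine Finset.mem_filter.2 ⟨(Finset.mem_product.1 h3.1).2, ?_⟩
      rw [← h1.2]
      exact h3.2
    · have h1 := (Finset.mem_filter.1 hp).2
      have h3 := (Finset.mem_filter.1 hq).2
      exact Prod.ext (h1.trans h3.symm) hpq
    · have h1 := Finset.mem_filter.1 hc
      exact ⟨(a, c), Finset.mem_filter.2 ⟨Finset.mem_sdiff.2
        ⟨Finset.mem_product.2 ⟨ha, h1.1⟩, h1.2⟩, rfl⟩, rfl⟩
  row := fun a _ => Wd4.row_hT hT.lam0 h2.p.symm h2.m.symm hν hN a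
  frA := fr_le_frob h2.t0 h2.p.frob1
  frC := fr_le_frob h2.t0 h2.m.frob1
  sA := by
    unfold D12.nr
    rw [← Real.sqrt_sq h2.s0]
    exact Real.sqrt_le_sqrt h2.p.S
  sC := by
    unfold D12.nr
    rw [← Real.sqrt_sq h2.s0]
    exact Real.sqrt_le_sqrt h2.m.S

/-- a matrix of operator norm `rh` vanishing off `P`, against `Lm` -/
theorem abs_sum_h_Lm_le {P : Finset (ι × ι)} {h : Matrix ι ι ℝ} {rh : ℝ} (hr : 0 ≤ rh)
    (hh : ∀ p : ι × ι, p ∉ P → h p.1 p.2 = 0) (ho : Mat.OpB h rh) (hA : A.IsSymm) (hC : C.IsSymm)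
    (hb : 0 ≤ b) (hcw : 0 ≤ cw) (ht : 0 ≤ t) (oA : Mat.OpB A b)
    (fAC : Mat.frob (A * C) ≤ cw ^ 2) (fA : Mat.frob A ≤ t ^ 2) :
    |∑ p ∈ P, h p.1 p.2 * Lm A C p.2 p.1| ≤ rh * cw * (b * cw + t) := by
  have e1 : ∑ p ∈ P, h p.1 p.2 * Lm A C p.2 p.1 = (h * Lm A C).trace := by
    have e2 : (h * Lm A C).trace = ∑ p : ι × ι, h p.1 p.2 * Lm A C p.2 p.1 := by
      rw [Fintype.sum_prod_type]
      simp only [Matrix.trace, Matrix.diag_apply, Matrix.mul_apply]
    rw [e2]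
    exact Finset.sum_subset (Finset.subset_univ P) fun p _ hp => by rw [hh p hp, zero_mul]
  have e3 : h * Lm A C = (h * A * (A * C)) * (C * A) - (h * A) * (A * C) := by
    unfold Lm
    rw [Xm_transpose hA hC]
    unfold Xm
    rw [Matrix.mul_sub, Matrix.mul_sub, Matrix.mul_one]
    simp only [Matrix.mul_assoc]
  have fCA : Mat.frob (C * A) ≤ cw ^ 2 := by
    have : C * A = (A * C)ᵀ := by rw [Matrix.transpose_mul, hA.eq, hC.eq]
    rw [this, Mat.frob_transpose]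
    exact fAC
  have f1 : Mat.frob (h * A * (A * C)) ≤ (rh * b * cw) ^ 2 := by
    refine ((ho.mul oA).frob_mul_le _).trans ?_
    have := mul_le_mul_of_nonneg_left fAC (sq_nonneg (rh * b))
    calc _ ≤ _ := this
      _ = _ := by ring
  have f2 : Mat.frob (h * A) ≤ (rh * t) ^ 2 := by
    refine (ho.frob_mul_le _).trans ?_
    rw [mul_pow]
    exact mul_le_mul_of_nonneg_left fA (sq_nonneg rh)
  have t1 := Tilt.abs_trace_le_of_frob (by positivity) hcw f1 fCA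
  have t2 := Tilt.abs_trace_le_of_frob (by positivity) hcw f2 fAC
  rw [e1, e3, Matrix.trace_sub]
  refine (abs_sub _ _).trans ?_
  nlinarith

/-- the tilt against `L` -/
theorem hLh_adm (h2 : Tilt.Two F Zp Zm b t s v cw) (hT : Tilt.TPar F forb lam Δ) :
    |∑ p ∈ adm F forb Zp Zm, Tilt.hT F forb Zp Zm lam p.1 p.2 * Lm Zp Zm p.2 p.1| ≤
      (lam * (2 * b + 9 / 4 * v) + Tilt.rbs lam Δ s) * cw * (b * cw + t) := by
  refine abs_sum_h_Lm_le ?_ (fun p hp => Tilt.hT_apply_eq_zero hp) (Wd4.opB_hT h2 hT)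
    h2.p.symm h2.m.symm h2.b0 h2.cw0 h2.t0 h2.p.opB ?_ h2.p.frob1
  · have := h2.b0
    have := h2.v0
    have := hT.lam0
    have := Tilt.rbs_nonneg (s := s) hT
    positivity
  · rw [Tilt.frob_mul_eq_W h2.p.symm h2.m.symm]; exact h2.W

/-- the tilt against `L` with the two matrices exchanged -/
theorem hLh_adm' (h2 : Tilt.Two F Zp Zm b t s v cw) (hT : Tilt.TPar F forb lam Δ) :
    |∑ p ∈ adm F forb Zp Zm, Tilt.hT F forb Zp Zm lam p.1 p.2 * Lm Zm Zp p.2 p.1| ≤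
      (lam * (2 * b + 9 / 4 * v) + Tilt.rbs lam Δ s) * cw * (b * cw + t) := by
  refine abs_sum_h_Lm_le ?_ (fun p hp => Tilt.hT_apply_eq_zero hp) (Wd4.opB_hT h2 hT)
    h2.m.symm h2.p.symm h2.b0 h2.cw0 h2.t0 h2.m.opB ?_ h2.m.frob1
  · have := h2.b0
    have := h2.v0
    have := hT.lam0
    have := Tilt.rbs_nonneg (s := s) hT
    positivity
  · rw [Tilt.frob_mul_eq_W h2.m.symm h2.p.symm, Matrix.trace_mul_comm]; exact h2.W

end Vale.Agent.P049.TS.Wd
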