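import Vale.Agent.P049.TS.W.Pt
import Vale.Agent.P049.TS.Tilt.RowS
import Vale.Agent.P049.TS.Drift.Arr

/-!
Block W: norm facts of `A`, `C`, `X = A C - 1`, `Y = A² C²`, `L = A² C Xᵀ`.
-/

set_option linter.unusedSectionVars false

namespace Vale.Agent.P049.TS.Wd.KN

open Matrix Finset Vale.Agent.P049.TS.Tilt

variable {ι : Type*} [Fintype ι] [DecidableEq ι]
variable {A C M N Z : Matrix ι ι ℝ} {F : Finset ι} {Zp Zm : Matrix ι ι ℝ}
  {b t s v cw w x y : ℝ}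

/-! ### general facts -/

theorem sqrt_le_of_le_sq (hx : 0 ≤ x) (h : y ≤ x ^ 2) : √y ≤ x := by
  rw [← Real.sqrt_sq hx]; exact Real.sqrt_le_sqrt h

theorem abs_ip_le (M N : Matrix ι ι ℝ) (hx : 0 ≤ x) (hy : 0 ≤ y) (hM : Mat.frob M ≤ x ^ 2)
    (hN : Mat.frob N ≤ y ^ 2) : |ip M N| ≤ x * y := by
  have e : ip M N = (Mᵀ * N).trace := by
    unfold ip
    rw [Finset.sum_comm]
    simp only [Matrix.trace, Matrix.diag_apply, Matrix.mul_apply, Matrix.transpose_apply]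
  rw [e]
  exact abs_trace_le_of_frob hx hy (by rw [Mat.frob_transpose]; exact hM) hN

/-- triangle inequality -/
theorem frob_add_le_sq (hx : 0 ≤ x) (hy : 0 ≤ y) (hM : Mat.frob M ≤ x ^ 2)
    (hN : Mat.frob N ≤ y ^ 2) : Mat.frob (M + N) ≤ (x + y) ^ 2 := by
  rw [frob_add]
  have := abs_le.1 (abs_ip_le M N hx hy hM hN)
  nlinarith [this.2]

theorem frob_sub_le_sq (hx : 0 ≤ x) (hy : 0 ≤ y) (hM : Mat.frob M ≤ x ^ 2)
    (hN : Mat.frob N ≤ y ^ 2) : Mat.frob (M - N) ≤ (x + y) ^ 2 := by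
  rw [sub_eq_add_neg]
  exact frob_add_le_sq hx hy hM (by rw [Mat.frob_neg]; exact hN)

theorem frob_mul_le_sq (hM : Mat.frob M ≤ x ^ 2) (hN : Mat.frob N ≤ y ^ 2) :
    Mat.frob (M * N) ≤ (x * y) ^ 2 := by
  rw [mul_pow]
  exact (Mat.frob_mul_le M N).trans (mul_le_mul hM hN (Mat.frob_nonneg _) (sq_nonneg x))

theorem fr_le_of_frob (F : Finset ι) (hx : 0 ≤ x) (hM : Mat.frob M ≤ x ^ 2) :
    D12.fr F M ≤ x := by
  unfold D12.fr
  refine sqrt_le_of_le_sq hx (le_trans ?_ hM)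
  rw [Finset.sum_product]
  unfold Mat.frob
  refine (Finset.sum_le_sum fun a _ => Finset.sum_le_sum_of_subset_of_nonneg
    (Finset.subset_univ F) fun _ _ _ => sq_nonneg _).trans ?_
  exact Finset.sum_le_sum_of_subset_of_nonneg (Finset.subset_univ F)
    fun _ _ _ => Finset.sum_nonneg fun _ _ => sq_nonneg _

theorem nr_le_of_sum (F : Finset ι) {u : ι → ℝ} (hx : 0 ≤ x) (hM : ∑ a ∈ F, u a ^ 2 ≤ x ^ 2) :
    D12.nr F u ≤ x := sqrt_le_of_le_sq hx hM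

/-- the diagonal entries of a product -/
theorem diag_mul_sq_le (M N : Matrix ι ι ℝ) (a : ι) :
    (M * N) a a ^ 2 ≤ rw2 M a * rw2 Nᵀ a := by
  have h := Mat.dot_sq_le (M a) (Nᵀ a)
  rw [← rw2_eq, ← rw2_eq] at h
  exact h

theorem mul_apply_sq_le (M N : Matrix ι ι ℝ) (a c : ι) :
    (M * N) a c ^ 2 ≤ rw2 M a * rw2 Nᵀ c := by
  have h := Mat.dot_sq_le (M a) (Nᵀ c)
  rw [← rw2_eq, ← rw2_eq] at h
  exact h

theorem sum_rw2_le (F : Finset ι) (M : Matrix ι ι ℝ) : ∑ a ∈ F, rw2 M a ≤ Mat.frob M := by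
  rw [← sum_rw2]
  exact Finset.sum_le_sum_of_subset_of_nonneg (Finset.subset_univ F) fun a _ _ => rw2_nonneg M a

/-- `Σ_S (M N)_aa² ≤ κ ‖N‖²` if the rows of `M` in `S` have square norm at most `κ` -/
theorem sum_diag_mul_sq_le (S : Finset ι) {κ : ℝ} (hκ : ∀ a ∈ S, rw2 M a ≤ κ)
    (hN : Mat.frob N ≤ y ^ 2) (h0 : 0 ≤ κ) : ∑ a ∈ S, (M * N) a a ^ 2 ≤ κ * y ^ 2 := by
  have h1 : ∀ a ∈ S, (M * N) a a ^ 2 ≤ κ * rw2 Nᵀ a := fun a ha =>
    (diag_mul_sq_le M N a).trans (mul_le_mul_of_nonneg_right (hκ a ha) (rw2_nonneg _ _))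
  refine (Finset.sum_le_sum h1).trans ?_
  rw [← Finset.mul_sum]
  refine mul_le_mul_of_nonneg_left ?_ h0
  refine (sum_rw2_le S _).trans ?_
  rw [Mat.frob_transpose]; exact hN

/-- the same with the rows of the second factor -/
theorem sum_diag_mul_sq_le' (S : Finset ι) {κ : ℝ} (hκ : ∀ a ∈ S, rw2 Nᵀ a ≤ κ)
    (hM : Mat.frob M ≤ x ^ 2) (h0 : 0 ≤ κ) : ∑ a ∈ S, (M * N) a a ^ 2 ≤ κ * x ^ 2 := by
  have h1 : ∀ a ∈ S, (M * N) a a ^ 2 ≤ κ * rw2 M a := fun a ha =>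
    (diag_mul_sq_le M N a).trans (by
      rw [mul_comm]; exact mul_le_mul_of_nonneg_right (hκ a ha) (rw2_nonneg _ _))
  refine (Finset.sum_le_sum h1).trans ?_
  rw [← Finset.mul_sum]
  exact mul_le_mul_of_nonneg_left ((sum_rw2_le S _).trans hM) h0

/-- `(A K C)_aa² ≤ ‖K‖² |A e_a|² |C e_a|²` -/
theorem diag_three_sq_le (A K C : Matrix ι ι ℝ) (a : ι) :
    (A * K * C) a a ^ 2 ≤ rw2 A a * Mat.frob K * rw2 Cᵀ a := by
  have h1 := diag_mul_sq_le A (K * C) a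
  rw [← Matrix.mul_assoc] at h1
  refine h1.trans ?_
  rw [mul_assoc]
  refine mul_le_mul_of_nonneg_left ?_ (rw2_nonneg A a)
  have h2 := Mat.mulVec_dot_le_frob K (Cᵀ a)
  rw [← rw2_eq] at h2
  refine le_trans (le_of_eq ?_) h2
  rw [rw2_eq]
  have e : (K * C)ᵀ a = K *ᵥ (Cᵀ a) := by
    ext j
    rfl
  rw [e]

/-- rows of a symmetric matrix -/
theorem rw2_eq_sq (hZ : Z.IsSymm) (a : ι) : rw2 Z a = (Z ^ 2) a a :=
  (Mat.sq_diag_eq_sum hZ a).symm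

theorem rw2_transpose (hZ : Z.IsSymm) (a : ι) : rw2 Zᵀ a = rw2 Z a := by rw [hZ.eq]

theorem rw2_eq_zero (hs : ∀ a, a ∉ F → ∀ b, Z a b = 0) {a : ι} (ha : a ∉ F) : rw2 Z a = 0 :=
  Finset.sum_eq_zero fun j _ => by rw [hs a ha j]; norm_num

/-- `|A e_a|² ≤ 1 + v` -/
theorem one_rw2_le (h : One F Z b t s v) (hv : 0 ≤ v) (a : ι) : rw2 Z a ≤ 1 + v := by
  by_cases ha : a ∈ F
  · have h1 : ((Z ^ 2) a a - 1) ^ 2 ≤ v ^ 2 :=
      (Finset.single_le_sum (f := fun a => ((Z ^ 2) a a - 1) ^ 2) (fun _ _ => sq_nonneg _)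
        ha).trans h.V
    have h2 := (abs_le_of_sq_le_sq' h1 hv).2
    rw [rw2_eq_sq h.symm]
    linarith
  · rw [rw2_eq_zero h.supp ha]; linarith

theorem one_sum_rw2_le (h : One F Z b t s v) : ∑ a ∈ F, rw2 Z a ≤ t ^ 2 :=
  (sum_rw2_le F Z).trans h.frob1

theorem rw2_gd {a : ι} (hZ : Z.IsSymm) (hZZ : Z = Zp ∨ Z = Zm) (ha : a ∈ gd F Zp Zm) :
    rw2 Z a ≤ 4 := by
  rw [rw2_eq_sq hZ]
  have h := (mem_gd.1 ha).2
  rcases hZZ with rfl | rfl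
  · exact h.1
  · exact h.2

theorem sum_rw2_mul_le (hA : A.IsSymm) (hC : C.IsSymm) (hwA : ∑ a ∈ F, (A ^ 2) a a ^ 2 ≤ w ^ 2)
    (hwC : ∑ a ∈ F, (C ^ 2) a a ^ 2 ≤ w ^ 2) : ∑ a ∈ F, rw2 A a * rw2 C a ≤ w ^ 2 := by
  have h1 : ∀ a ∈ F, rw2 A a * rw2 C a ≤ ((A ^ 2) a a ^ 2 + (C ^ 2) a a ^ 2) / 2 := by
    intro a _
    rw [rw2_eq_sq hA, rw2_eq_sq hC]
    nlinarith [sq_nonneg ((A ^ 2) a a - (C ^ 2) a a)]
  refine (Finset.sum_le_sum h1).trans ?_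
  rw [← Finset.sum_div, Finset.sum_add_distrib]
  linarith

/-! ### supports and identities -/

theorem supp_mul (hs : ∀ a, a ∉ F → ∀ b, M a b = 0) : ∀ a, a ∉ F → ∀ b, (M * N) a b = 0 := by
  intro a ha b
  rw [Matrix.mul_apply]
  exact Finset.sum_eq_zero fun k _ => by rw [hs a ha k, zero_mul]

theorem supp_mul' (hs : ∀ b, b ∉ F → ∀ a, N a b = 0) : ∀ b, b ∉ F → ∀ a, (M * N) a b = 0 := by
  intro b hb a
  rw [Matrix.mul_apply]
  exact Finset.sum_eq_zero fun k _ => by rw [hs b hb k, mul_zero]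

theorem supp_col (hZ : Z.IsSymm) (hs : ∀ a, a ∉ F → ∀ b, Z a b = 0) :
    ∀ b, b ∉ F → ∀ a, Z a b = 0 := fun b hb a => by rw [hZ.apply b a]; exact hs b hb a

theorem Lm_eq (hA : A.IsSymm) (hC : C.IsSymm) :
    Lm A C = A * (A * C) * (C * A) - A * (A * C) := by
  unfold Lm
  rw [Xm_transpose hA hC]
  unfold Xm
  rw [Matrix.mul_sub, Matrix.mul_one]

theorem AXm_eq (A C : Matrix ι ι ℝ) : A * Xm A C = A * (A * C) - A := by
  unfold Xm
  rw [Matrix.mul_sub, Matrix.mul_one]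

theorem XmC_transpose (hA : A.IsSymm) (hC : C.IsSymm) : (Xm A C * C)ᵀ = C * Xm C A := by
  rw [Matrix.transpose_mul, Xm_transpose hA hC, hC.eq]

theorem XmC_apply (hA : A.IsSymm) (hC : C.IsSymm) (i j : ι) :
    (Xm A C * C) i j = (C * Xm C A) j i := by
  rw [← XmC_transpose hA hC, Matrix.transpose_apply]

theorem frob_XmC (hA : A.IsSymm) (hC : C.IsSymm) :
    Mat.frob (Xm A C * C) = Mat.frob (C * Xm C A) := by
  rw [← XmC_transpose hA hC, Mat.frob_transpose]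

theorem Ym_transpose (hA : A.IsSymm) (hC : C.IsSymm) : (Ym A C)ᵀ = Ym C A := by
  unfold Ym
  rw [Matrix.transpose_mul, Matrix.transpose_mul, Matrix.transpose_mul, hA.eq, hC.eq]
  simp only [Matrix.mul_assoc]

theorem Lm_supp (hA : A.IsSymm) (hC : C.IsSymm) (hs : ∀ a, a ∉ F → ∀ b, A a b = 0) :
    ∀ a, a ∉ F → ∀ b, Lm A C a b = 0 := by
  intro a ha b
  rw [Lm_eq hA hC, Matrix.sub_apply, supp_mul (supp_mul hs) a ha b, supp_mul hs a ha b, sub_zero]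

theorem Ym_supp (hs : ∀ a, a ∉ F → ∀ b, A a b = 0) :
    ∀ a, a ∉ F → ∀ b, Ym A C a b = 0 := by
  intro a ha b
  unfold Ym
  exact supp_mul (supp_mul hs) a ha b

theorem AXm_supp (hs : ∀ a, a ∉ F → ∀ b, A a b = 0) :
    ∀ a, a ∉ F → ∀ b, (A * Xm A C) a b = 0 := supp_mul hs

/-- sum of the diagonal over `F` = trace -/
theorem sum_diag_eq_trace (hs : ∀ a, a ∉ F → ∀ b, M a b = 0) : ∑ a ∈ F, M a a = M.trace := by
  rw [Matrix.trace]
  simp only [Matrix.diag_apply]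
  exact Finset.sum_subset (Finset.subset_univ F) fun a _ ha => hs a ha a

/-! ### `X` -/

/-- `Σ_F |row_a X|² = ‖AC‖² - 2 tr (AC) + #F` -/
theorem sum_rw2_Xm (hs : ∀ a, a ∉ F → ∀ b, A a b = 0) :
    ∑ a ∈ F, rw2 (Xm A C) a = Mat.frob (A * C) - 2 * (A * C).trace + F.card := by
  have h1 : ∀ a, rw2 (Xm A C) a = rw2 (A * C) a - 2 * (A * C) a a + 1 := by
    intro a
    unfold rw2 Xm
    have e : ∀ j, (A * C - 1) a j ^ 2 = (A * C) a j ^ 2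
        - 2 * (if a = j then (A * C) a j else 0) + (if a = j then 1 else 0) := by
      intro j
      rw [Matrix.sub_apply, Matrix.one_apply]
      split_ifs <;> ring
    simp only [e, Finset.sum_add_distrib, Finset.sum_sub_distrib, ← Finset.mul_sum,
      Finset.sum_ite_eq, Finset.mem_univ, if_true]
  simp only [h1, Finset.sum_add_distrib, Finset.sum_sub_distrib, ← Finset.mul_sum]
  have hsup : ∀ a, a ∉ F → ∀ b, (A * C) a b = 0 := supp_mul hs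
  rw [sum_diag_eq_trace hsup]
  have e2 : ∑ a ∈ F, rw2 (A * C) a = Mat.frob (A * C) := by
    rw [← sum_rw2]
    exact Finset.sum_subset (Finset.subset_univ F) fun a _ ha => rw2_eq_zero hsup ha
  rw [e2]
  simp

/-- the diagonal of `X` -/
theorem sum_Xm_diag (hs : ∀ a, a ∉ F → ∀ b, A a b = 0) :
    ∑ a ∈ F, Xm A C a a = (A * C).trace - F.card := by
  have h1 : ∀ a, Xm A C a a = (A * C) a a - 1 := by
    intro a; unfold Xm; rw [Matrix.sub_apply, Matrix.one_apply_eq]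
  simp only [h1, Finset.sum_sub_distrib]
  rw [sum_diag_eq_trace (supp_mul hs)]
  simp

theorem sum_Xm_diag_sq_le (hA : A.IsSymm) (hC : C.IsSymm)
    (hwA : ∑ a ∈ F, (A ^ 2) a a ^ 2 ≤ w ^ 2) (hwC : ∑ a ∈ F, (C ^ 2) a a ^ 2 ≤ w ^ 2) :
    ∑ a ∈ F, Xm A C a a ^ 2 ≤ 2 * w ^ 2 + 2 * F.card := by
  have h1 : ∀ a ∈ F, Xm A C a a ^ 2 ≤ 2 * (rw2 A a * rw2 C a) + 2 := by
    intro a _
    have h2 := diag_mul_sq_le A C a
    rw [rw2_transpose hC] at h2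
    unfold Xm
    rw [Matrix.sub_apply, Matrix.one_apply_eq]
    nlinarith [sq_nonneg ((A * C) a a + 1)]
  refine (Finset.sum_le_sum h1).trans ?_
  rw [Finset.sum_add_distrib, ← Finset.mul_sum, Finset.sum_const, nsmul_eq_mul]
  have := sum_rw2_mul_le hA hC hwA hwC
  linarith

section two

variable (h : Two F Zp Zm b t s v cw) (hP : IsPair Zp Zm A C)

include h hP

theorem kn_gdA {a : ι} (ha : a ∈ gd F Zp Zm) : rw2 A a ≤ 4 := by
  refine rw2_gd (h.one hP).symm ?_ ha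
  rcases hP with ⟨rfl, rfl⟩ | ⟨rfl, rfl⟩
  · exact Or.inl rfl
  · exact Or.inr rfl

theorem kn_rw2_le (a : ι) : rw2 A a ≤ 1 + v := one_rw2_le (h.one hP) h.v0 a

/-- `|tr (A C)| ≤ t²` -/
theorem kn_abs_trace_AC : |(A * C).trace| ≤ t ^ 2 := by
  rw [sq t]
  exact abs_trace_le_of_frob h.t0 h.t0 (h.one hP).frob1 (h.one' hP).frob1

theorem kn_sum_rw2_Xm_le : ∑ a ∈ F, rw2 (Xm A C) a ≤ cw ^ 2 + 2 * t ^ 2 + F.card := by
  rw [sum_rw2_Xm (h.one hP).supp]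
  have h1 := h.frobW hP
  have h2 := abs_le.1 (kn_abs_trace_AC h hP)
  linarith [h2.1]

theorem kn_sum_gd_Xm_diag_sq_le :
    ∑ a ∈ gd F Zp Zm, Xm A C a a ^ 2 ≤ 25 * F.card := by
  have hC := (h.one' hP).symm
  have h1 : ∀ a ∈ gd F Zp Zm, Xm A C a a ^ 2 ≤ 25 := by
    intro a ha
    have h2 := diag_mul_sq_le A C a
    rw [rw2_transpose hC] at h2
    have h3 := kn_gdA h hP ha
    have h4 := kn_gdA h hP.swap ha
    have h5 : (A * C) a a ^ 2 ≤ 4 ^ 2 := by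
      have := rw2_nonneg A a
      have := rw2_nonneg C a
      nlinarith
    have h6 := abs_le_of_sq_le_sq' h5 (by norm_num)
    unfold Xm
    rw [Matrix.sub_apply, Matrix.one_apply_eq]
    nlinarith [h6.1, h6.2]
  refine (Finset.sum_le_sum h1).trans ?_
  rw [Finset.sum_const, nsmul_eq_mul, mul_comm]
  have hc : ((gd F Zp Zm).card : ℝ) ≤ F.card := by
    exact_mod_cast Finset.card_le_card fun a ha => (mem_gd.1 ha).1
  linarith

/-! ### `A² C` -/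

theorem kn_frob_AAC : Mat.frob (A * (A * C)) ≤ (b * cw) ^ 2 :=
  OpB.mul_frob h.b0 (h.opB hP) (h.frobW hP)

/-! ### `A X` -/

theorem kn_frob_AXm : Mat.frob (A * Xm A C) ≤ (b * cw + t) ^ 2 := by
  rw [AXm_eq]
  exact frob_sub_le_sq (mul_nonneg h.b0 h.cw0) h.t0 (kn_frob_AAC h hP) (h.one hP).frob1

theorem kn_sum_AXm_aux (S : Finset ι) (hS : S ⊆ F) {κ : ℝ} (h0 : 0 ≤ κ)
    (hκ : ∀ a ∈ S, rw2 A a ≤ κ) :
    ∑ a ∈ S, (A * Xm A C) a a ^ 2 ≤ 2 * κ * cw ^ 2 + 2 * s ^ 2 := by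
  have h1 := sum_diag_mul_sq_le (M := A) (N := A * C) S hκ (h.frobW hP) h0
  have h2 : ∑ a ∈ S, A a a ^ 2 ≤ s ^ 2 :=
    (Finset.sum_le_sum_of_subset_of_nonneg hS fun _ _ _ => sq_nonneg _).trans (h.one hP).S
  have h3 : ∀ a ∈ S, (A * Xm A C) a a ^ 2 ≤ 2 * (A * (A * C)) a a ^ 2 + 2 * A a a ^ 2 := by
    intro a _
    rw [AXm_eq, Matrix.sub_apply]
    nlinarith [sq_nonneg ((A * (A * C)) a a + A a a)]
  refine (Finset.sum_le_sum h3).trans ?_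
  rw [Finset.sum_add_distrib, ← Finset.mul_sum, ← Finset.mul_sum]
  linarith

theorem kn_sum_AXm_diag_sq_le :
    ∑ a ∈ F, (A * Xm A C) a a ^ 2 ≤ 2 * (1 + v) * cw ^ 2 + 2 * s ^ 2 :=
  kn_sum_AXm_aux h hP F (Finset.Subset.refl F) (by have := h.v0; linarith)
    fun a _ => kn_rw2_le h hP a

theorem kn_sum_gd_AXm_diag_sq_le :
    ∑ a ∈ gd F Zp Zm, (A * Xm A C) a a ^ 2 ≤ 8 * cw ^ 2 + 2 * s ^ 2 := by
  have := kn_sum_AXm_aux h hP (gd F Zp Zm) (fun a ha => (mem_gd.1 ha).1) (by norm_num : (0:ℝ) ≤ 4)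
    fun a ha => kn_gdA h hP ha
  linarith

/-! ### `Y` -/

theorem kn_frob_Ym : Mat.frob (Ym A C) ≤ (b ^ 2 * cw) ^ 2 := by
  unfold Ym
  refine ((h.one' hP).opB.frob_mul_le_right (h.one' hP).symm _).trans ?_
  calc b ^ 2 * Mat.frob (A * (A * C)) ≤ b ^ 2 * (b * cw) ^ 2 :=
        mul_le_mul_of_nonneg_left (kn_frob_AAC h hP) (sq_nonneg b)
    _ = _ := by ring

theorem kn_Ym_diag_sq_le (a : ι) : Ym A C a a ^ 2 ≤ cw ^ 2 * (rw2 A a * rw2 C a) := by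
  unfold Ym
  have h1 := diag_three_sq_le A (A * C) C a
  rw [rw2_transpose (h.one' hP).symm] at h1
  have h2 := mul_le_mul_of_nonneg_left (h.frobW hP)
    (mul_nonneg (rw2_nonneg A a) (rw2_nonneg C a))
  linarith

theorem kn_sum_Ym_diag_sq_le (hwA : ∑ a ∈ F, (A ^ 2) a a ^ 2 ≤ w ^ 2)
    (hwC : ∑ a ∈ F, (C ^ 2) a a ^ 2 ≤ w ^ 2) : ∑ a ∈ F, Ym A C a a ^ 2 ≤ (cw * w) ^ 2 := by
  refine (Finset.sum_le_sum fun a _ => kn_Ym_diag_sq_le h hP a).trans ?_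
  rw [← Finset.mul_sum, mul_pow]
  exact mul_le_mul_of_nonneg_left
    (sum_rw2_mul_le (h.one hP).symm (h.one' hP).symm hwA hwC) (sq_nonneg cw)

theorem kn_sum_gd_Ym_diag_sq_le :
    ∑ a ∈ gd F Zp Zm, Ym A C a a ^ 2 ≤ (2 * b * cw) ^ 2 := by
  unfold Ym
  have h1 := sum_diag_mul_sq_le' (M := A * (A * C)) (N := C) (gd F Zp Zm) (κ := 4)
    (fun a ha => by rw [rw2_transpose (h.one' hP).symm]; exact kn_gdA h hP.swap ha)
    (kn_frob_AAC h hP) (by norm_num)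
  refine h1.trans (le_of_eq (by ring))

/-! ### `L` -/

theorem kn_frob_Lm : Mat.frob (Lm A C) ≤ (b * cw ^ 2 + b * cw) ^ 2 := by
  rw [Lm_eq (h.one hP).symm (h.one' hP).symm]
  have h1 := frob_mul_le_sq (kn_frob_AAC h hP) (h.frobW hP.swap)
  have e : b * cw ^ 2 = b * cw * cw := by ring
  rw [e]
  have hb := h.b0
  have hc := h.cw0
  exact frob_sub_le_sq (by positivity) (by positivity) h1 (kn_frob_AAC h hP)

theorem kn_sum_Lm_aux (S : Finset ι) {κ : ℝ} (h0 : 0 ≤ κ) (hκ : ∀ a ∈ S, rw2 A a ≤ κ) :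
    ∑ a ∈ S, Lm A C a a ^ 2 ≤ 2 * (κ * cw ^ 4) + 2 * (κ * cw ^ 2) := by
  have h1 := sum_diag_mul_sq_le (M := A) (N := A * C * (C * A)) (y := cw * cw) S hκ
    (frob_mul_le_sq (h.frobW hP) (h.frobW hP.swap)) h0
  have h2 := sum_diag_mul_sq_le (M := A) (N := A * C) S hκ (h.frobW hP) h0
  rw [← Matrix.mul_assoc] at h1
  have h3 : ∀ a ∈ S, Lm A C a a ^ 2 ≤ 2 * (A * (A * C) * (C * A)) a a ^ 2
      + 2 * (A * (A * C)) a a ^ 2 := by
    intro a _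
    rw [Lm_eq (h.one hP).symm (h.one' hP).symm, Matrix.sub_apply]
    nlinarith [sq_nonneg ((A * (A * C) * (C * A)) a a + (A * (A * C)) a a)]
  refine (Finset.sum_le_sum h3).trans ?_
  rw [Finset.sum_add_distrib, ← Finset.mul_sum, ← Finset.mul_sum]
  have e : (cw * cw) ^ 2 = cw ^ 4 := by ring
  rw [e] at h1
  linarith

theorem kn_sum_Lm_diag_sq_le :
    ∑ a ∈ F, Lm A C a a ^ 2 ≤ 2 * ((1 + v) * cw ^ 4) + 2 * ((1 + v) * cw ^ 2) :=
  kn_sum_Lm_aux h hP F (by have := h.v0; linarith) fun a _ => kn_rw2_le h hP a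

theorem kn_sum_gd_Lm_diag_sq_le :
    ∑ a ∈ gd F Zp Zm, Lm A C a a ^ 2 ≤ 2 * (2 * cw ^ 2) ^ 2 + 2 * (4 * cw ^ 2) := by
  have := kn_sum_Lm_aux h hP (gd F Zp Zm) (by norm_num : (0:ℝ) ≤ 4) fun a ha => kn_gdA h hP ha
  linarith [this]

theorem kn_abs_trace_Lm : |(Lm A C).trace| ≤ b * cw ^ 2 + t * cw := by
  rw [Lm_eq (h.one hP).symm (h.one' hP).symm, Matrix.trace_sub]
  have hb := h.b0
  have hc := h.cw0
  have h1 := abs_trace_le_of_frob (M := A * (A * C)) (N := C * A) (mul_nonneg hb hc) hc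
    (kn_frob_AAC h hP) (h.frobW hP.swap)
  have h2 := abs_trace_le_of_frob (M := A) (N := A * C) h.t0 hc (h.one hP).frob1 (h.frobW hP)
  refine (abs_sub _ _).trans ?_
  linarith

/-! ### diagonal sums over `F` -/

theorem kn_sum_Lm_diag : ∑ a ∈ F, Lm A C a a = (Lm A C).trace :=
  sum_diag_eq_trace (Lm_supp (h.one hP).symm (h.one' hP).symm (h.one hP).supp)

theorem kn_sum_Ym_diag : ∑ a ∈ F, Ym A C a a = Mat.frob (A * C) := by
  rw [sum_diag_eq_trace (Ym_supp (h.one hP).supp),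
    frob_mul_eq_W (h.one hP).symm (h.one' hP).symm]
  unfold Ym
  rw [sq, sq]
  simp only [Matrix.mul_assoc]

theorem kn_sum_AXm_diag :
    ∑ a ∈ F, (A * Xm A C) a a = (A * (A * C)).trace - A.trace := by
  rw [sum_diag_eq_trace (AXm_supp (h.one hP).supp), AXm_eq, Matrix.trace_sub]

theorem kn_abs_sum_AXm_diag : |∑ a ∈ F, (A * Xm A C) a a + A.trace| ≤ t * cw := by
  rw [kn_sum_AXm_diag h hP, sub_add_cancel]
  exact abs_trace_le_of_frob (M := A) (N := A * C) h.t0 h.cw0 (h.one hP).frob1 (h.frobW hP)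

theorem kn_abs_sum_Xm_diag : |∑ a ∈ F, Xm A C a a| ≤ t ^ 2 + F.card := by
  rw [sum_Xm_diag (h.one hP).supp]
  refine (abs_sub _ _).trans ?_
  rw [abs_of_nonneg (by positivity : (0:ℝ) ≤ F.card)]
  have := kn_abs_trace_AC h hP
  linarith

end two

/-! ### full sums: both matrices have row sums `1` on `F` -/

section full

variable (hA : A.IsSymm) (hC : C.IsSymm) (hsA : ∀ a, a ∉ F → ∀ b, A a b = 0)
  (hsC : ∀ a, a ∉ F → ∀ b, C a b = 0) (hrA : ∀ a ∈ F, ∑ b, A a b = 1)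
  (hrC : ∀ a ∈ F, ∑ b, C a b = 1)

/-- the indicator vector of `F` -/
def iF (F : Finset ι) : ι → ℝ := fun i => if i ∈ F then 1 else 0

theorem mulVec_iF_apply (M : Matrix ι ι ℝ) (a : ι) : (M *ᵥ iF F) a = ∑ b ∈ F, M a b := by
  simp only [Matrix.mulVec, dotProduct, iF, mul_ite, mul_one, mul_zero]
  rw [Finset.sum_ite_mem, Finset.univ_inter]

theorem mulVec_iF (hZ : Z.IsSymm) (hs : ∀ a, a ∉ F → ∀ b, Z a b = 0)
    (hr : ∀ a ∈ F, ∑ b, Z a b = 1) : Z *ᵥ iF F = iF F := by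
  ext i
  rw [mulVec_iF_apply]
  have e : ∑ b ∈ F, Z i b = ∑ b, Z i b :=
    Finset.sum_subset (Finset.subset_univ F) fun b _ hb => supp_col hZ hs b hb i
  rw [e]
  unfold iF
  by_cases hi : i ∈ F
  · rw [if_pos hi, hr i hi]
  · rw [if_neg hi, Finset.sum_eq_zero fun j _ => hs i hi j]

include hA hC hsA hsC hrA hrC

theorem Xm_mulVec_iF : Xm A C *ᵥ iF F = 0 := by
  unfold Xm
  rw [Matrix.sub_mulVec, ← Matrix.mulVec_mulVec, mulVec_iF hC hsC hrC, mulVec_iF hA hsA hrA,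
    Matrix.one_mulVec, sub_self]

/-- rows of `X` over `F` sum to `0` -/
theorem sum_row_Xm (a : ι) : ∑ c ∈ F, Xm A C a c = 0 := by
  rw [← mulVec_iF_apply, Xm_mulVec_iF hA hC hsA hsC hrA hrC]; rfl

theorem sum_row_Lm (a : ι) : ∑ c ∈ F, Lm A C a c = 0 := by
  rw [← mulVec_iF_apply]
  unfold Lm
  rw [Xm_transpose hA hC, ← Matrix.mulVec_mulVec, Xm_mulVec_iF hC hA hsC hsA hrC hrA,
    Matrix.mulVec_zero]
  rfl

theorem sum_row_AXm (a : ι) : ∑ c ∈ F, (A * Xm A C) a c = 0 := by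
  rw [← mulVec_iF_apply, ← Matrix.mulVec_mulVec, Xm_mulVec_iF hA hC hsA hsC hrA hrC,
    Matrix.mulVec_zero]
  rfl

theorem sum_row_XmC (a : ι) : ∑ c ∈ F, (Xm A C * C) a c = 0 := by
  rw [← mulVec_iF_apply, ← Matrix.mulVec_mulVec, mulVec_iF hC hsC hrC,
    Xm_mulVec_iF hA hC hsA hsC hrA hrC]
  rfl

theorem sum_row_Ym {a : ι} (ha : a ∈ F) : ∑ c ∈ F, Ym A C a c = 1 := by
  rw [← mulVec_iF_apply]
  unfold Ym
  rw [← Matrix.mulVec_mulVec, ← Matrix.mulVec_mulVec, ← Matrix.mulVec_mulVec,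
    mulVec_iF hC hsC hrC, mulVec_iF hC hsC hrC, mulVec_iF hA hsA hrA, mulVec_iF hA hsA hrA]
  simp [iF, ha]

/-- `Σ_{F × F} L = 0` -/
theorem sum_sum_Lm : ∑ p ∈ F ×ˢ F, Lm A C p.1 p.2 = 0 := by
  rw [Finset.sum_product]
  exact Finset.sum_eq_zero fun a _ => sum_row_Lm hA hC hsA hsC hrA hrC a

theorem sum_sum_Xm : ∑ p ∈ F ×ˢ F, Xm A C p.1 p.2 = 0 := by
  rw [Finset.sum_product]
  exact Finset.sum_eq_zero fun a _ => sum_row_Xm hA hC hsA hsC hrA hrC a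

theorem sum_sum_AXm : ∑ p ∈ F ×ˢ F, (A * Xm A C) p.1 p.2 = 0 := by
  rw [Finset.sum_product]
  exact Finset.sum_eq_zero fun a _ => sum_row_AXm hA hC hsA hsC hrA hrC a

theorem sum_sum_Ym : ∑ p ∈ F ×ˢ F, Ym A C p.1 p.2 = F.card := by
  rw [Finset.sum_product]
  simp only
  rw [Finset.sum_congr rfl fun a ha => sum_row_Ym hA hC hsA hsC hrA hrC ha]
  simp

end full

end Vale.Agent.P049.TS.Wd.KN
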