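import Vale.Agent.P049.TS.W.Lin
import Vale.Agent.P049.TS.W.Err

/-!
Block W: weighted sums of the nonnegative arrays `be2`, `rho`, `al2 al2`, and of the block.
-/

set_option linter.unusedSectionVars false

namespace Vale.Agent.P049.TS.Wd

open Matrix Finset D12

variable {ι : Type*} [Fintype ι] [DecidableEq ι]
variable {F g : Finset ι} {A C h : Matrix ι ι ℝ} {P : Finset (ι × ι)}
  {t s e rh G Hr v w cw ν x xd : ℝ}

/-- nonnegative arrays: enlarge `P` to `F × F` -/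
theorem sum_nonneg_le (c : Cx F g A C h P t s e rh G Hr) (f : ι → ι → ℝ) (hf : ∀ a b, 0 ≤ f a b)
    {K : ℝ} (hK : ∑ a ∈ F, ∑ b ∈ F, f a b ≤ K) :
    ∑ p ∈ P, (1 - h p.1 p.2) * f p.1 p.2 ≤ 3 / 2 * K := by
  have h1 : ∑ p ∈ P, (1 - h p.1 p.2) * f p.1 p.2 ≤ ∑ p ∈ P, 3 / 2 * f p.1 p.2 :=
    Finset.sum_le_sum fun p _ => mul_le_mul_of_nonneg_right (weight_le c _ _) (hf _ _)
  refine h1.trans ?_
  rw [← Finset.mul_sum]
  refine mul_le_mul_of_nonneg_left (le_trans ?_ hK) (by norm_num)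
  rw [← Finset.sum_product' F F f]
  exact Finset.sum_le_sum_of_subset_of_nonneg c.sub fun _ _ _ => hf _ _

/-- the data for the nonnegative arrays -/
structure Sb (F : Finset ι) (A C : Matrix ι ι ℝ) (s t v w x xd : ℝ) : Prop where
  v0 : 0 ≤ v
  uA : ∀ a, rw2 A a ≤ 1 + v
  uC : ∀ a, rw2 C a ≤ 1 + v
  SA : ∑ a ∈ F, A a a ^ 2 ≤ s ^ 2
  SC : ∑ a ∈ F, C a a ^ 2 ≤ s ^ 2
  TA : ∑ a ∈ F, rw2 A a ≤ t ^ 2
  TC : ∑ a ∈ F, rw2 C a ≤ t ^ 2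
  WW : ∑ a ∈ F, rw2 A a * rw2 C a ≤ w ^ 2
  x2 : ∑ a ∈ F, rw2 (Xm A C) a ≤ x ^ 2
  xd : ∑ a ∈ F, Xm A C a a ^ 2 ≤ xd ^ 2

theorem diag_le (hS : ∑ a ∈ F, A a a ^ 2 ≤ s ^ 2) {a : ι} (ha : a ∈ F) : A a a ^ 2 ≤ s ^ 2 :=
  (Finset.single_le_sum (f := fun a => A a a ^ 2) (fun _ _ => sq_nonneg _) ha).trans hS

theorem row_le_rw2 (F : Finset ι) (M : Matrix ι ι ℝ) (a : ι) : ∑ b ∈ F, M a b ^ 2 ≤ rw2 M a :=
  Finset.sum_le_sum_of_subset_of_nonneg (Finset.subset_univ F) fun _ _ _ => sq_nonneg _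

/-- `al2 ≤ (13/2 + 26/5 s²) (1 + v)` on `F` -/
theorem al2_le (hv : 0 ≤ v) (hu : ∀ a, rw2 A a ≤ 1 + v) (hS : ∑ a ∈ F, A a a ^ 2 ≤ s ^ 2)
    (a : ι) {b : ι} (hb : b ∈ F) : al2 A a b ≤ (13 / 2 + 26 / 5 * s ^ 2) * (1 + v) := by
  unfold al2
  have h1 := hu b
  have h2 : A b b ^ 2 * rw2 A a ≤ s ^ 2 * (1 + v) :=
    mul_le_mul (diag_le hS hb) (hu a) (rw2_nonneg _ _) (sq_nonneg s)
  linarith

/-- `Σ_b be2 A a b` -/
theorem row_be2_le (hv : 0 ≤ v) (hu : ∀ a, rw2 A a ≤ 1 + v)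
    (hS : ∑ a ∈ F, A a a ^ 2 ≤ s ^ 2) {a : ι} (ha : a ∈ F) :
    ∑ b ∈ F, be2 A a b ≤ 16 * ((1 + v) ^ 2 + s ^ 4 * (1 + v)) + 26 / 5 * (s ^ 2 * (1 + v)) := by
  have hv1 : 0 ≤ 1 + v := by linarith
  have h1 : ∑ b ∈ F, A a b ^ 2 * rw2 A b ≤ (1 + v) * (1 + v) := by
    calc ∑ b ∈ F, A a b ^ 2 * rw2 A b ≤ ∑ b ∈ F, A a b ^ 2 * (1 + v) :=
          Finset.sum_le_sum fun b _ => mul_le_mul_of_nonneg_left (hu b) (sq_nonneg _)
      _ = (∑ b ∈ F, A a b ^ 2) * (1 + v) := by rw [Finset.sum_mul]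
      _ ≤ (1 + v) * (1 + v) :=
          mul_le_mul_of_nonneg_right ((row_le_rw2 F A a).trans (hu a)) hv1
  have h2 : ∑ b ∈ F, (A a a * A b b) ^ 2 * rw2 A b ≤ s ^ 2 * (s ^ 2 * (1 + v)) := by
    calc ∑ b ∈ F, (A a a * A b b) ^ 2 * rw2 A b
        ≤ ∑ b ∈ F, s ^ 2 * (A b b ^ 2 * (1 + v)) := by
          refine Finset.sum_le_sum fun b _ => ?_
          rw [mul_pow, mul_assoc]
          exact mul_le_mul (diag_le hS ha) (mul_le_mul_of_nonneg_left (hu b) (sq_nonneg _))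
            (mul_nonneg (sq_nonneg _) (rw2_nonneg _ _)) (sq_nonneg s)
      _ = s ^ 2 * ((∑ b ∈ F, A b b ^ 2) * (1 + v)) := by rw [← Finset.mul_sum, Finset.sum_mul]
      _ ≤ s ^ 2 * (s ^ 2 * (1 + v)) :=
          mul_le_mul_of_nonneg_left (mul_le_mul_of_nonneg_right hS hv1) (sq_nonneg s)
  have h3 : ∑ b ∈ F, A b b ^ 2 * rw2 A a ≤ s ^ 2 * (1 + v) := by
    rw [← Finset.sum_mul]
    exact mul_le_mul hS (hu a) (rw2_nonneg _ _) (sq_nonneg s)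
  have e : ∑ b ∈ F, be2 A a b = 16 * (∑ b ∈ F, A a b ^ 2 * rw2 A b
      + ∑ b ∈ F, (A a a * A b b) ^ 2 * rw2 A b) + 26 / 5 * ∑ b ∈ F, A b b ^ 2 * rw2 A a := by
    rw [← Finset.sum_add_distrib, Finset.mul_sum, Finset.mul_sum, ← Finset.sum_add_distrib]
    refine Finset.sum_congr rfl fun b _ => ?_
    unfold be2
    ring
  rw [e]
  nlinarith [h1, h2, h3]

theorem sum_be2 (c : Cx F g A C h P t s e rh G Hr) (q : Sb F A C s t v w x xd) :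
    ∑ p ∈ P, (1 - h p.1 p.2) * (be2 A p.1 p.2 * rw2 (Xm A C) p.1) ≤ EB s v x := by
  unfold EB
  refine sum_nonneg_le c (fun a b => be2 A a b * rw2 (Xm A C) a)
    (fun a b => mul_nonneg (be2_nonneg _ _ _) (rw2_nonneg _ _)) ?_
  have hv := q.v0
  set K := 16 * ((1 + v) ^ 2 + s ^ 4 * (1 + v)) + 26 / 5 * (s ^ 2 * (1 + v)) with hK
  have hK0 : 0 ≤ K := by positivity
  have h1 : ∀ a ∈ F, ∑ b ∈ F, be2 A a b * rw2 (Xm A C) a ≤ K * rw2 (Xm A C) a := by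
    intro a ha
    rw [← Finset.sum_mul]
    exact mul_le_mul_of_nonneg_right (row_be2_le hv q.uA q.SA ha) (rw2_nonneg _ _)
  refine (Finset.sum_le_sum h1).trans ?_
  rw [← Finset.mul_sum]
  exact mul_le_mul_of_nonneg_left q.x2 hK0

theorem sum_X2 (q : Sb F A C s t v w x xd) : ∑ a ∈ F, ∑ b ∈ F, Xm A C a b ^ 2 ≤ x ^ 2 :=
  (Finset.sum_le_sum fun a _ => row_le_rw2 F (Xm A C) a).trans q.x2

/-- `Σ_b al2 A a b ≤ 13/2 t² + 26/5 s² (1+v)` -/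
theorem row_al2_le (hv : 0 ≤ v) (hu : ∀ a, rw2 A a ≤ 1 + v)
    (hS : ∑ a ∈ F, A a a ^ 2 ≤ s ^ 2) (hT : ∑ a ∈ F, rw2 A a ≤ t ^ 2) (a : ι) :
    ∑ b ∈ F, al2 A a b ≤ 13 / 2 * t ^ 2 + 26 / 5 * (s ^ 2 * (1 + v)) := by
  unfold al2
  rw [Finset.sum_add_distrib, ← Finset.mul_sum, ← Finset.mul_sum, ← Finset.sum_mul]
  have h3 : (∑ b ∈ F, A b b ^ 2) * rw2 A a ≤ s ^ 2 * (1 + v) :=
    mul_le_mul hS (hu a) (rw2_nonneg _ _) (sq_nonneg s)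
  linarith

/-- `Σ_b al2 A a b al2 C a b` -/
theorem row_al2_al2_le (q : Sb F A C s t v w x xd) (a : ι) :
    ∑ b ∈ F, al2 A a b * al2 C a b
      ≤ 169 / 4 * w ^ 2 + 70 * (s ^ 2 * (1 + v) ^ 2) + 28 * (s ^ 4 * (1 + v) ^ 2) := by
  have hv1 : 0 ≤ 1 + v := by have := q.v0; linarith
  have hA := rw2_nonneg A a
  have hC := rw2_nonneg C a
  have k1 : ∑ b ∈ F, rw2 A b * (C b b ^ 2 * rw2 C a) ≤ s ^ 2 * (1 + v) ^ 2 := by
    calc ∑ b ∈ F, rw2 A b * (C b b ^ 2 * rw2 C a)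
        ≤ ∑ b ∈ F, C b b ^ 2 * (1 + v) ^ 2 := by
          refine Finset.sum_le_sum fun b _ => ?_
          calc rw2 A b * (C b b ^ 2 * rw2 C a) ≤ (1 + v) * (C b b ^ 2 * (1 + v)) :=
                mul_le_mul (q.uA b) (mul_le_mul_of_nonneg_left (q.uC a) (sq_nonneg _))
                  (mul_nonneg (sq_nonneg _) hC) hv1
            _ = _ := by ring
      _ = (∑ b ∈ F, C b b ^ 2) * (1 + v) ^ 2 := by rw [Finset.sum_mul]
      _ ≤ _ := mul_le_mul_of_nonneg_right q.SC (sq_nonneg _)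
  have k2 : ∑ b ∈ F, (A b b ^ 2 * rw2 A a) * rw2 C b ≤ s ^ 2 * (1 + v) ^ 2 := by
    calc ∑ b ∈ F, (A b b ^ 2 * rw2 A a) * rw2 C b
        ≤ ∑ b ∈ F, A b b ^ 2 * (1 + v) ^ 2 := by
          refine Finset.sum_le_sum fun b _ => ?_
          calc (A b b ^ 2 * rw2 A a) * rw2 C b ≤ (A b b ^ 2 * (1 + v)) * (1 + v) :=
                mul_le_mul (mul_le_mul_of_nonneg_left (q.uA a) (sq_nonneg _)) (q.uC b)
                  (rw2_nonneg _ _) (mul_nonneg (sq_nonneg _) hv1)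
            _ = _ := by ring
      _ = (∑ b ∈ F, A b b ^ 2) * (1 + v) ^ 2 := by rw [Finset.sum_mul]
      _ ≤ _ := mul_le_mul_of_nonneg_right q.SA (sq_nonneg _)
  have k3 : ∑ b ∈ F, (A b b ^ 2 * rw2 A a) * (C b b ^ 2 * rw2 C a) ≤ s ^ 4 * (1 + v) ^ 2 := by
    calc ∑ b ∈ F, (A b b ^ 2 * rw2 A a) * (C b b ^ 2 * rw2 C a)
        ≤ ∑ b ∈ F, A b b ^ 2 * (s ^ 2 * (1 + v) ^ 2) := by
          refine Finset.sum_le_sum fun b hb => ?_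
          calc (A b b ^ 2 * rw2 A a) * (C b b ^ 2 * rw2 C a)
              ≤ (A b b ^ 2 * (1 + v)) * (s ^ 2 * (1 + v)) :=
                mul_le_mul (mul_le_mul_of_nonneg_left (q.uA a) (sq_nonneg _))
                  (mul_le_mul (diag_le q.SC hb) (q.uC a) hC (sq_nonneg s))
                  (mul_nonneg (sq_nonneg _) hC) (mul_nonneg (sq_nonneg _) hv1)
            _ = _ := by ring
      _ = (∑ b ∈ F, A b b ^ 2) * (s ^ 2 * (1 + v) ^ 2) := by rw [Finset.sum_mul]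
      _ ≤ s ^ 2 * (s ^ 2 * (1 + v) ^ 2) := mul_le_mul_of_nonneg_right q.SA (by positivity)
      _ = _ := by ring
  have e : ∑ b ∈ F, al2 A a b * al2 C a b = 169 / 4 * ∑ b ∈ F, rw2 A b * rw2 C b
      + 169 / 5 * (∑ b ∈ F, rw2 A b * (C b b ^ 2 * rw2 C a)
        + ∑ b ∈ F, (A b b ^ 2 * rw2 A a) * rw2 C b)
      + 676 / 25 * ∑ b ∈ F, (A b b ^ 2 * rw2 A a) * (C b b ^ 2 * rw2 C a) := by
    simp only [Finset.mul_sum, ← Finset.sum_add_distrib]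
    refine Finset.sum_congr rfl fun b _ => ?_
    unfold al2
    ring
  rw [e]
  have n1 : 0 ≤ s ^ 2 * (1 + v) ^ 2 := by positivity
  have n2 : 0 ≤ s ^ 4 * (1 + v) ^ 2 := by positivity
  linarith [q.WW, k1, k2, k3]

theorem sum_TT (c : Cx F g A C h P t s e rh G Hr) (q : Sb F A C s t v w x xd) :
    ∑ p ∈ P, (1 - h p.1 p.2) * (Xm A C p.1 p.1 ^ 2 * (al2 A p.1 p.2 * al2 C p.1 p.2)
      + Xm A C p.1 p.2 ^ 2 * (al2 A p.1 p.2 * al2 C p.2 p.1)) ≤ EQ s v w x xd := by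
  unfold EQ
  have hv := q.v0
  have hv1 : 0 ≤ 1 + v := by linarith
  refine sum_nonneg_le c (fun a b => Xm A C a a ^ 2 * (al2 A a b * al2 C a b)
      + Xm A C a b ^ 2 * (al2 A a b * al2 C b a)) (fun a b => ?_) ?_
  · have := al2_nonneg A a b
    have := al2_nonneg C a b
    have := al2_nonneg C b a
    positivity
  set K := 169 / 4 * w ^ 2 + 70 * (s ^ 2 * (1 + v) ^ 2) + 28 * (s ^ 4 * (1 + v) ^ 2) with hK
  set M := (13 / 2 + 26 / 5 * s ^ 2) * (1 + v) with hM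
  have hM0 : 0 ≤ M := by positivity
  have hK0 : 0 ≤ K := by positivity
  have h1 : ∑ a ∈ F, ∑ b ∈ F, Xm A C a a ^ 2 * (al2 A a b * al2 C a b) ≤ K * xd ^ 2 := by
    calc ∑ a ∈ F, ∑ b ∈ F, Xm A C a a ^ 2 * (al2 A a b * al2 C a b)
        ≤ ∑ a ∈ F, K * Xm A C a a ^ 2 := by
          refine Finset.sum_le_sum fun a _ => ?_
          rw [← Finset.mul_sum, mul_comm K]
          exact mul_le_mul_of_nonneg_left (row_al2_al2_le q a) (sq_nonneg _)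
      _ = K * ∑ a ∈ F, Xm A C a a ^ 2 := by rw [Finset.mul_sum]
      _ ≤ _ := mul_le_mul_of_nonneg_left q.xd hK0
  have h2 : ∑ a ∈ F, ∑ b ∈ F, Xm A C a b ^ 2 * (al2 A a b * al2 C b a) ≤ M * M * x ^ 2 := by
    calc ∑ a ∈ F, ∑ b ∈ F, Xm A C a b ^ 2 * (al2 A a b * al2 C b a)
        ≤ ∑ a ∈ F, ∑ b ∈ F, (M * M) * Xm A C a b ^ 2 := by
          refine Finset.sum_le_sum fun a ha => Finset.sum_le_sum fun b hb => ?_
          rw [mul_comm (M * M)]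
          exact mul_le_mul_of_nonneg_left (mul_le_mul (al2_le hv q.uA q.SA a hb)
            (al2_le hv q.uC q.SC b ha) (al2_nonneg _ _ _) hM0) (sq_nonneg _)
      _ = M * M * ∑ a ∈ F, ∑ b ∈ F, Xm A C a b ^ 2 := by simp only [Finset.mul_sum]
      _ ≤ _ := mul_le_mul_of_nonneg_left (sum_X2 q) (mul_nonneg hM0 hM0)
  simp only [Finset.sum_add_distrib]
  have e : K * xd ^ 2 + M * M * x ^ 2 = 169 / 4 * (w ^ 2 * xd ^ 2)
      + 70 * (s ^ 2 * (1 + v) ^ 2 * xd ^ 2) + 28 * (s ^ 4 * (1 + v) ^ 2 * xd ^ 2)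
      + (13 / 2 + 26 / 5 * s ^ 2) ^ 2 * (1 + v) ^ 2 * x ^ 2 := by
    rw [hK, hM]; ring
  rw [← e]
  exact add_le_add h1 h2

theorem sum_rho (c : Cx F g A C h P t s e rh G Hr) (q : Sb F A C s t v w x xd) :
    ∑ p ∈ P, (1 - h p.1 p.2) * rho A C p.1 p.2 ≤ ER t s v x xd := by
  unfold ER
  have hv := q.v0
  have hv1 : 0 ≤ 1 + v := by linarith
  refine sum_nonneg_le c (fun a b => rho A C a b) (fun a b => ?_) ?_
  · have := al2_nonneg C a b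
    have := al2_nonneg C b a
    have := rw2_nonneg (Xm A C) a
    have := rw2_nonneg (Xm A C) b
    unfold rho
    positivity
  set M := (13 / 2 + 26 / 5 * s ^ 2) * (1 + v) with hM
  have hM0 : 0 ≤ M := by positivity
  -- (1)
  have h1 : ∑ a ∈ F, ∑ b ∈ F, (A a b ^ 2 + (A a a * A b b) ^ 2) * rw2 (Xm A C) a
      ≤ ((1 + v) + s ^ 4) * x ^ 2 := by
    have r : ∀ a ∈ F, ∑ b ∈ F, (A a b ^ 2 + (A a a * A b b) ^ 2) ≤ (1 + v) + s ^ 4 := by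
      intro a ha
      rw [Finset.sum_add_distrib]
      have r1 := (row_le_rw2 F A a).trans (q.uA a)
      have r2 : ∑ b ∈ F, (A a a * A b b) ^ 2 ≤ s ^ 4 := by
        simp only [mul_pow]
        rw [← Finset.mul_sum]
        calc A a a ^ 2 * ∑ b ∈ F, A b b ^ 2 ≤ s ^ 2 * s ^ 2 :=
              mul_le_mul (diag_le q.SA ha) q.SA (Finset.sum_nonneg fun _ _ => sq_nonneg _)
                (sq_nonneg s)
          _ = s ^ 4 := by ring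
      linarith
    calc ∑ a ∈ F, ∑ b ∈ F, (A a b ^ 2 + (A a a * A b b) ^ 2) * rw2 (Xm A C) a
        ≤ ∑ a ∈ F, ((1 + v) + s ^ 4) * rw2 (Xm A C) a := by
          refine Finset.sum_le_sum fun a ha => ?_
          rw [← Finset.sum_mul]
          exact mul_le_mul_of_nonneg_right (r a ha) (rw2_nonneg _ _)
      _ = ((1 + v) + s ^ 4) * ∑ a ∈ F, rw2 (Xm A C) a := by rw [Finset.mul_sum]
      _ ≤ _ := mul_le_mul_of_nonneg_left q.x2 (by positivity)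
  -- (2)
  have h2 : ∑ a ∈ F, ∑ b ∈ F, A a a ^ 2 * rw2 (Xm A C) b ≤ s ^ 2 * x ^ 2 := by
    rw [← Finset.sum_mul_sum]
    exact mul_le_mul q.SA q.x2 (Finset.sum_nonneg fun _ _ => rw2_nonneg _ _) (sq_nonneg s)
  -- (3)
  have h3 : ∑ a ∈ F, ∑ b ∈ F, Xm A C a a ^ 2 * al2 C a b
      ≤ (13 / 2 * t ^ 2 + 26 / 5 * (s ^ 2 * (1 + v))) * xd ^ 2 := by
    calc ∑ a ∈ F, ∑ b ∈ F, Xm A C a a ^ 2 * al2 C a b
        ≤ ∑ a ∈ F, (13 / 2 * t ^ 2 + 26 / 5 * (s ^ 2 * (1 + v))) * Xm A C a a ^ 2 := by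
          refine Finset.sum_le_sum fun a _ => ?_
          rw [← Finset.mul_sum, mul_comm (13 / 2 * t ^ 2 + 26 / 5 * (s ^ 2 * (1 + v)))]
          exact mul_le_mul_of_nonneg_left (row_al2_le hv q.uC q.SC q.TC a) (sq_nonneg _)
      _ = _ := by rw [← Finset.mul_sum]
      _ ≤ _ := mul_le_mul_of_nonneg_left q.xd (by positivity)
  -- (4)
  have h4 : ∑ a ∈ F, ∑ b ∈ F, Xm A C a b ^ 2 * al2 C b a ≤ M * x ^ 2 := by
    calc ∑ a ∈ F, ∑ b ∈ F, Xm A C a b ^ 2 * al2 C b a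
        ≤ ∑ a ∈ F, ∑ b ∈ F, M * Xm A C a b ^ 2 := by
          refine Finset.sum_le_sum fun a ha => Finset.sum_le_sum fun b _ => ?_
          rw [mul_comm M]
          exact mul_le_mul_of_nonneg_left (al2_le hv q.uC q.SC b ha) (sq_nonneg _)
      _ = M * ∑ a ∈ F, ∑ b ∈ F, Xm A C a b ^ 2 := by simp only [Finset.mul_sum]
      _ ≤ _ := mul_le_mul_of_nonneg_left (sum_X2 q) hM0
  -- (5)
  have h5 : ∑ a ∈ F, ∑ b ∈ F, A a a ^ 2 * (Xm A C b a ^ 2 * al2 C a b) ≤ s ^ 2 * (M * x ^ 2) := by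
    calc ∑ a ∈ F, ∑ b ∈ F, A a a ^ 2 * (Xm A C b a ^ 2 * al2 C a b)
        ≤ ∑ a ∈ F, ∑ b ∈ F, s ^ 2 * (M * Xm A C b a ^ 2) := by
          refine Finset.sum_le_sum fun a ha => Finset.sum_le_sum fun b hb => ?_
          refine mul_le_mul (diag_le q.SA ha) ?_
            (mul_nonneg (sq_nonneg _) (al2_nonneg _ _ _)) (sq_nonneg s)
          rw [mul_comm M]
          exact mul_le_mul_of_nonneg_left (al2_le hv q.uC q.SC a hb) (sq_nonneg _)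
      _ = s ^ 2 * (M * ∑ b ∈ F, ∑ a ∈ F, Xm A C b a ^ 2) := by
          rw [Finset.sum_comm]
          simp only [Finset.mul_sum]
      _ ≤ _ := mul_le_mul_of_nonneg_left (mul_le_mul_of_nonneg_left (sum_X2 q) hM0) (sq_nonneg s)
  -- (6)
  have h6 : ∑ a ∈ F, ∑ b ∈ F, A a a ^ 2 * (Xm A C b b ^ 2 * al2 C b a)
      ≤ s ^ 2 * (M * xd ^ 2) := by
    calc ∑ a ∈ F, ∑ b ∈ F, A a a ^ 2 * (Xm A C b b ^ 2 * al2 C b a)
        ≤ ∑ a ∈ F, ∑ b ∈ F, A a a ^ 2 * (M * Xm A C b b ^ 2) := by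
          refine Finset.sum_le_sum fun a ha => Finset.sum_le_sum fun b _ => ?_
          refine mul_le_mul_of_nonneg_left ?_ (sq_nonneg _)
          rw [mul_comm M]
          exact mul_le_mul_of_nonneg_left (al2_le hv q.uC q.SC b ha) (sq_nonneg _)
      _ = (∑ a ∈ F, A a a ^ 2) * (M * ∑ b ∈ F, Xm A C b b ^ 2) := by
          rw [Finset.mul_sum, Finset.sum_mul_sum]
      _ ≤ _ := mul_le_mul q.SA (mul_le_mul_of_nonneg_left q.xd hM0)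
          (mul_nonneg hM0 (Finset.sum_nonneg fun _ _ => sq_nonneg _)) (sq_nonneg s)
  have e : ∑ a ∈ F, ∑ b ∈ F, rho A C a b
      = 8 * ∑ a ∈ F, ∑ b ∈ F, (A a b ^ 2 + (A a a * A b b) ^ 2) * rw2 (Xm A C) a
        + 64 / 25 * ∑ a ∈ F, ∑ b ∈ F, A a a ^ 2 * rw2 (Xm A C) b
        + 81 / 25 * (∑ a ∈ F, ∑ b ∈ F, Xm A C a a ^ 2 * al2 C a b
          + ∑ a ∈ F, ∑ b ∈ F, Xm A C a b ^ 2 * al2 C b a)
        + 64 / 25 * (∑ a ∈ F, ∑ b ∈ F, A a a ^ 2 * (Xm A C b a ^ 2 * al2 C a b)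
          + ∑ a ∈ F, ∑ b ∈ F, A a a ^ 2 * (Xm A C b b ^ 2 * al2 C b a)) := by
    simp only [Finset.mul_sum, ← Finset.sum_add_distrib]
    refine Finset.sum_congr rfl fun a _ => Finset.sum_congr rfl fun b _ => ?_
    unfold rho
    ring
  rw [e]
  have e2 : 64 / 25 * (s ^ 2 * (13 / 2 + 26 / 5 * s ^ 2) * (1 + v) * (x ^ 2 + xd ^ 2))
      = 64 / 25 * (s ^ 2 * (M * x ^ 2) + s ^ 2 * (M * xd ^ 2)) := by rw [hM]; ring
  rw [e2]
  have e3 : (13 / 2 * t ^ 2 + 26 / 5 * (s ^ 2 * (1 + v))) * xd ^ 2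
      = 13 / 2 * (t ^ 2 * xd ^ 2) + 26 / 5 * (s ^ 2 * (1 + v) * xd ^ 2) := by ring
  rw [e3] at h3
  linarith [h1, h2, h3, h4, h5, h6]

/-- the block -/
theorem sum_blk (c : Cx F g A C h P t s e rh G Hr) (hW : ∑ a ∈ F, (A * C) a a ^ 2 ≤ w ^ 2)
    (hN : (F.card : ℝ) = ν ^ 2) (hcw : Mat.frob (A * C) ≤ cw ^ 2) :
    ∑ p ∈ P, (1 - h p.1 p.2) * ((A * C) p.1 p.1 ^ 2 + (A * C) p.1 p.2 ^ 2)
      ≤ 3 / 2 * (ν ^ 2 * w ^ 2 + cw ^ 2) := by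
  refine sum_nonneg_le c (fun a b => (A * C) a a ^ 2 + (A * C) a b ^ 2)
    (fun a b => by positivity) ?_
  simp only [Finset.sum_add_distrib, Finset.sum_const, nsmul_eq_mul]
  rw [← Finset.mul_sum, hN]
  refine add_le_add (mul_le_mul_of_nonneg_left hW (sq_nonneg ν)) ?_
  refine (Finset.sum_le_sum fun a _ => row_le_rw2 F (A * C) a).trans (le_trans ?_ hcw)
  rw [← sum_rw2]
  exact Finset.sum_le_sum_of_subset_of_nonneg (Finset.subset_univ F) fun a _ _ => rw2_nonneg _ a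

end Vale.Agent.P049.TS.Wd
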