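import Vale.Agent.P049.TS.W.Asm1
import Vale.Agent.P049.TS.W.Sq
import Vale.Agent.P049.TS.W.KN
import Vale.Agent.P049.TS.W.Cx

/-!
Block W: **the total drift of `W = tr Z₊² Z₋²`** for the tilted average over the admissible pairs.
-/

set_option linter.unusedSectionVars false

namespace Vale.Agent.P049.TS.Wd

open Matrix Finset D12

variable {ι : Type*} [Fintype ι] [DecidableEq ι]

/-! ### small facts -/

theorem sq_nr (F : Finset ι) (u : ι → ℝ) : nr F u ^ 2 = ∑ a ∈ F, u a ^ 2 :=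
  Real.sq_sqrt (Finset.sum_nonneg fun _ _ => sq_nonneg _)

/-- the sum of the rows over `F` is the full sum -/
theorem sum_rw2_F {F : Finset ι} {M : Matrix ι ι ℝ} (hs : ∀ a, a ∉ F → ∀ b, M a b = 0) :
    ∑ a ∈ F, rw2 M a = Mat.frob M := by
  rw [← sum_rw2]
  refine Finset.sum_subset (Finset.subset_univ F) fun a _ ha => ?_
  exact Finset.sum_eq_zero fun j _ => by rw [hs a ha j]; norm_num

/-- the norm of an array is at most the norm of its rows -/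
theorem fr_le_of_rows {F : Finset ι} {M : Matrix ι ι ℝ} {x : ℝ} (hx : 0 ≤ x)
    (h : ∑ a ∈ F, rw2 M a ≤ x ^ 2) : fr F M ≤ x := by
  unfold fr
  rw [← Real.sqrt_sq hx]
  apply Real.sqrt_le_sqrt
  rw [Finset.sum_product]
  exact (Finset.sum_le_sum fun a _ => row_le_rw2 F M a).trans h

/-- `‖X Xᵀ‖ ≤ ‖X‖²` -/
theorem fr_gram_le {F : Finset ι} {M : Matrix ι ι ℝ} {x : ℝ}
    (h : ∑ a ∈ F, rw2 M a ≤ x ^ 2) : fr F (M * Mᵀ) ≤ x ^ 2 := by
  have hx : 0 ≤ x ^ 2 := sq_nonneg x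
  unfold fr
  rw [← Real.sqrt_sq hx]
  apply Real.sqrt_le_sqrt
  have h0 : 0 ≤ ∑ a ∈ F, rw2 M a := Finset.sum_nonneg fun _ _ => rw2_nonneg _ _
  have h1 : ∑ p ∈ F ×ˢ F, (M * Mᵀ) p.1 p.2 ^ 2 ≤ ∑ p ∈ F ×ˢ F, rw2 M p.1 * rw2 M p.2 := by
    refine Finset.sum_le_sum fun p _ => ?_
    have := KN.mul_apply_sq_le M Mᵀ p.1 p.2
    rwa [Matrix.transpose_transpose] at this
  refine h1.trans ?_
  rw [Finset.sum_product]
  simp only
  rw [← Finset.sum_mul_sum, ← sq]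
  exact pow_le_pow_left₀ h0 h 2

theorem nr_le_of_frob {F : Finset ι} {M : Matrix ι ι ℝ} {x : ℝ} (hx : 0 ≤ x)
    (h : Mat.frob M ≤ x ^ 2) : nr F (fun a => M a a) ≤ x := by
  refine KN.nr_le_of_sum F hx (le_trans ?_ h)
  unfold Mat.frob
  refine (Finset.sum_le_sum_of_subset_of_nonneg (Finset.subset_univ F)
    fun _ _ _ => sq_nonneg _).trans ?_
  exact Finset.sum_le_sum fun a _ => Finset.single_le_sum (f := fun b => M a b ^ 2)
    (fun _ _ => sq_nonneg _) (Finset.mem_univ a)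

theorem sum_swap_Lm {F : Finset ι} {L : Matrix ι ι ℝ} (h : ∑ p ∈ F ×ˢ F, L p.1 p.2 = 0) :
    ∑ p ∈ F ×ˢ F, L p.2 p.1 = 0 := by
  rw [Finset.sum_product_right]
  rw [Finset.sum_product] at h
  exact h

section

variable {F : Finset ι} {forb : ι → ι → Prop} {Zp Zm A C : Matrix ι ι ℝ}
  {lam b t s v w cw Δ e ν τ δ : ℝ}

/-- the data of the nonnegative arrays -/
theorem mkSb (h : Tilt.Two F Zp Zm b t s v cw) (hP : Tilt.IsPair Zp Zm A C)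
    (hwA : ∑ a ∈ F, (A ^ 2) a a ^ 2 ≤ w ^ 2) (hwC : ∑ a ∈ F, (C ^ 2) a a ^ 2 ≤ w ^ 2)
    (hw : 0 ≤ w) (hν : 0 ≤ ν) (hN : (F.card : ℝ) = ν ^ 2) :
    Sb F A C s t v w (cw + 2 * t + ν) (2 * w + 2 * ν) where
  v0 := h.v0
  uA := KN.kn_rw2_le h hP
  uC := KN.kn_rw2_le h hP.swap
  SA := (h.one hP).S
  SC := (h.one' hP).S
  TA := KN.one_sum_rw2_le (h.one hP)
  TC := KN.one_sum_rw2_le (h.one' hP)
  WW := KN.sum_rw2_mul_le (h.one hP).symm (h.one' hP).symm hwA hwC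
  x2 := by
    have h1 := KN.kn_sum_rw2_Xm_le h hP
    rw [hN] at h1
    have h2 := h.cw0
    have h3 := h.t0
    nlinarith [mul_nonneg h2 h3, mul_nonneg h2 hν, mul_nonneg h3 hν, sq_nonneg t]
  xd := by
    have h1 := KN.sum_Xm_diag_sq_le (h.one hP).symm (h.one' hP).symm hwA hwC
    rw [hN] at h1
    nlinarith [mul_nonneg hw hν, sq_nonneg w, sq_nonneg ν]

/-- the numerical facts for one order -/
theorem mkNf (h : Tilt.Two F Zp Zm b t s v cw) (hP : Tilt.IsPair Zp Zm A C)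
    (hrA : ∀ a ∈ F, ∑ b, A a b = 1) (hrC : ∀ a ∈ F, ∑ b, C a b = 1)
    (hwA : ∑ a ∈ F, (A ^ 2) a a ^ 2 ≤ w ^ 2) (hwC : ∑ a ∈ F, (C ^ 2) a a ^ 2 ≤ w ^ 2)
    (hw : 0 ≤ w) (hν : 0 ≤ ν) (hN : (F.card : ℝ) = ν ^ 2) (hτ : |A.trace| ≤ τ)
    {H : Matrix ι ι ℝ} {P : Finset (ι × ι)} {rh G Hr : ℝ}
    (c : Cx F (Tilt.gd F Zp Zm) A C H P t s e rh G Hr)
    (hLh : |∑ p ∈ P, H p.1 p.2 * Lm A C p.2 p.1| ≤ rh * cw * (b * cw + t)) :
    Nf F (Tilt.gd F Zp Zm) A C H P b t s v w cw e rh G Hr ν τ := by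
  have q := mkSb (ν := ν) h hP hwA hwC hw hν hN
  have hA := (h.one hP).symm
  have hC := (h.one' hP).symm
  have hsA := (h.one hP).supp
  have hsC := (h.one' hP).supp
  have b0 := h.b0
  have cw0 := h.cw0
  have t0 := h.t0
  exact
  { cx := c
    b0 := b0
    v0 := h.v0
    w0 := hw
    cw0 := cw0
    ν0 := hν
    N := hN
    xF := KN.sum_rw2_Xm hsA
    xF2 := q.x2
    WF := sum_rw2_F (KN.supp_mul hsA)
    W := h.frobW hP
    TF := by rw [sum_rw2_F hsA, Mat.frob_eq_trace_sq hA]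
    T := (h.one hP).T2
    g4 := fun a ha => KN.kn_gdA h hP ha
    L0 := sum_swap_Lm (KN.sum_sum_Lm hA hC hsA hsC hrA hrC)
    Lh := hLh
    Lf := KN.fr_le_of_frob F (by positivity) (KN.kn_frob_Lm h hP)
    Ld := nr_le_of_frob (by positivity) (KN.kn_frob_Lm h hP)
    Lg := by
      refine KN.nr_le_of_sum _ (by positivity) ((KN.kn_sum_gd_Lm_diag_sq_le h hP).trans ?_)
      nlinarith [pow_nonneg cw0 3, pow_nonneg cw0 4, sq_nonneg cw]
    Lt := by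
      rw [KN.kn_sum_Lm_diag h hP]
      exact KN.kn_abs_trace_Lm h hP
    Tτ := by rw [KN.sum_diag_eq_trace hsA]; exact hτ
    A2 := KN.fr_le_of_frob F (sq_nonneg b) (h.one hP).frob2
    XX := fr_gram_le q.x2
    be := sum_be2 c q
    rho := sum_rho c q }

/-- the facts used once -/
theorem mkNf2 (h : Tilt.Two F Zp Zm b t s v cw) (hP : Tilt.IsPair Zp Zm A C)
    (hwA : ∑ a ∈ F, (A ^ 2) a a ^ 2 ≤ w ^ 2) (hwC : ∑ a ∈ F, (C ^ 2) a a ^ 2 ≤ w ^ 2)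
    (hw : 0 ≤ w) (hν : 0 ≤ ν) (hN : (F.card : ℝ) = ν ^ 2)
    {H : Matrix ι ι ℝ} {P : Finset (ι × ι)} {rh G Hr : ℝ}
    (c : Cx F (Tilt.gd F Zp Zm) A C H P t s e rh G Hr) :
    Nf2 F (Tilt.gd F Zp Zm) A C H P b t s v w cw e rh ν := by
  have q := mkSb (ν := ν) h hP hwA hwC hw hν hN
  have hA := (h.one hP).symm
  have hC := (h.one' hP).symm
  have hsA := (h.one hP).supp
  have hsC := (h.one' hP).supp
  have b0 := h.b0
  have cw0 := h.cw0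
  have t0 := h.t0
  have hX : ∀ a, (Xm A C * C) a a = (C * Xm C A) a a := fun a => KN.XmC_apply hA hC a a
  exact
  { Yf := KN.fr_le_of_frob F (by positivity) (KN.kn_frob_Ym h hP)
    Yd := KN.nr_le_of_sum F (by positivity) (KN.kn_sum_Ym_diag_sq_le h hP hwA hwC)
    Yg := KN.nr_le_of_sum _ (by positivity) (KN.kn_sum_gd_Ym_diag_sq_le h hP)
    Yt := KN.kn_sum_Ym_diag h hP
    Xf := fr_le_of_rows (by positivity) q.x2
    Xd := KN.nr_le_of_sum F (by positivity) q.xd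
    Xg := by
      refine KN.nr_le_of_sum _ (by positivity) ((KN.kn_sum_gd_Xm_diag_sq_le h hP).trans ?_)
      rw [hN]
      nlinarith [sq_nonneg ν]
    Xt := KN.sum_Xm_diag hsA
    Mf := KN.fr_le_of_frob F (by positivity) (KN.kn_frob_AXm h hP)
    Nf := KN.fr_le_of_frob F (by positivity)
      (by rw [KN.frob_XmC hA hC]; exact KN.kn_frob_AXm h hP.swap)
    Md := by rw [sq_nr]; exact KN.kn_sum_AXm_diag_sq_le h hP
    Nd := by
      rw [sq_nr]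
      simp only [hX]
      exact KN.kn_sum_AXm_diag_sq_le h hP.swap
    Mg := by rw [sq_nr]; exact KN.kn_sum_gd_AXm_diag_sq_le h hP
    Ng := by
      rw [sq_nr]
      simp only [hX]
      exact KN.kn_sum_gd_AXm_diag_sq_le h hP.swap
    Mt := by
      rw [KN.kn_sum_AXm_diag h hP, sq, Matrix.mul_assoc]
    Nt := by
      simp only [hX]
      rw [KN.kn_sum_AXm_diag h hP.swap, sq, Matrix.mul_assoc]
    TT := sum_TT c q
    blk := by
      refine sum_blk c ((Finset.sum_le_sum fun a _ => ?_).trans q.WW) hN (h.frobW hP)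
      have := KN.diag_mul_sq_le A C a
      rwa [KN.rw2_transpose hC] at this }

/-- **the total drift of `W`** -/
theorem W_drift (h : Tilt.Two F Zp Zm b t s v cw) (hT : Tilt.TPar F forb lam Δ)
    (hrp : ∀ a ∈ F, ∑ b, Zp a b = 1) (hrm : ∀ a ∈ F, ∑ b, Zm a b = 1)
    (hwp : ∑ a ∈ F, (Zp ^ 2) a a ^ 2 ≤ w ^ 2) (hwm : ∑ a ∈ F, (Zm ^ 2) a a ^ 2 ≤ w ^ 2)
    (hw : 0 ≤ w) (hν : 0 ≤ ν) (he : 0 ≤ e) (hN : (F.card : ℝ) = ν ^ 2)
    (hE : ((((F ×ˢ F) \ adm F forb Zp Zm).card : ℕ) : ℝ) ≤ e ^ 2)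
    (htp : |Zp.trace| ≤ τ) (htm : |Zm.trace| ≤ τ) (hδ : 0 < δ) (hδ1 : δ ≤ 1) :
    ∑ p ∈ adm F forb Zp Zm, (1 - Tilt.hT F forb Zp Zm lam p.1 p.2) *
        ((upd Zp p.1 p.2 ^ 2 * upd Zm p.1 p.2 ^ 2).trace - (Zp ^ 2 * Zm ^ 2).trace)
      ≤ mainW (ν ^ 2) (Zp * Zm).trace (Zp ^ 2).trace (Zm ^ 2).trace
          ((Zp ^ 2 * Zm).trace - Zp.trace) ((Zm ^ 2 * Zp).trace - Zm.trace) (Zp ^ 2 * Zm ^ 2).trace
        + errW b t s v w cw e (1 + Δ + 128 * (1 + v) + 128 * s ^ 4) (4 * lam * ν)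
            (lam * (2 * b + 9 / 4 * v) + Tilt.rbs lam Δ s) ν τ δ δ⁻¹ := by
  have hP : Tilt.IsPair Zp Zm Zp Zm := Or.inl ⟨rfl, rfl⟩
  have c := cx_adm h hT he hν hN.le hE
  have n := mkNf h hP hrp hrm hwp hwm hw hν hN htp c (hLh_adm h hT)
  have n' := mkNf h hP.swap hrm hrp hwm hwp hw hν hN htm c.swap (hLh_adm' h hT)
  have m := mkNf2 h hP hwp hwm hw hν hN c
  have hsw : ∀ p ∈ adm F forb Zp Zm, (p.2, p.1) ∈ adm F forb Zp Zm := fun p hp =>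
    Tilt.adm_symm h.p.symm h.m.symm hT.symm hp
  have key := W_total n n' m hsw hδ hδ1
  have hfr : ∀ p ∈ adm F forb Zp Zm, Mat.frob (upd Zp p.1 p.2 * upd Zm p.1 p.2)
      = (upd Zp p.1 p.2 ^ 2 * upd Zm p.1 p.2 ^ 2).trace := by
    intro p hp
    obtain ⟨_, o1, o2⟩ := c.ok p hp
    exact Tilt.frob_mul_eq_W (upd_isSymm h.p.symm) (upd_isSymm h.m.symm)
  have e1 : ∑ p ∈ adm F forb Zp Zm, (1 - Tilt.hT F forb Zp Zm lam p.1 p.2) *
        ((upd Zp p.1 p.2 ^ 2 * upd Zm p.1 p.2 ^ 2).trace - (Zp ^ 2 * Zm ^ 2).trace)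
      = ∑ p ∈ adm F forb Zp Zm, (1 - Tilt.hT F forb Zp Zm lam p.1 p.2) *
        (Mat.frob (upd Zp p.1 p.2 * upd Zm p.1 p.2) - Mat.frob (Zp * Zm)) := by
    refine Finset.sum_congr rfl fun p hp => ?_
    rw [hfr p hp, Tilt.frob_mul_eq_W h.p.symm h.m.symm]
  rw [e1]
  rw [Tilt.frob_mul_eq_W h.p.symm h.m.symm] at key ⊢
  exact key

end

end Vale.Agent.P049.TS.Wd
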