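import Vale.Agent.P049.TS.W.Lin2
import Vale.Agent.P049.TS.W.Err
import Vale.Agent.P049.TS.Mat.Spectral

/-!
Block W, part 5: assembly of the drift of `‖A C‖_F²` from the sums.
-/

set_option linter.unusedSectionVars false

namespace Vale.Agent.P049.TS.Wd

open Matrix Finset D12

variable {ι : Type*} [Fintype ι] [DecidableEq ι]
variable {F g : Finset ι} {A C h : Matrix ι ι ℝ} {P : Finset (ι × ι)}
  {b t s v w cw e rh G Hr ν τ δ : ℝ}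

/-- the numerical facts used in the assembly, for one order of `A, C` -/
structure Nf (F g : Finset ι) (A C h : Matrix ι ι ℝ) (P : Finset (ι × ι))
    (b t s v w cw e rh G Hr ν τ : ℝ) : Prop where
  cx : Cx F g A C h P t s e rh G Hr
  b0 : 0 ≤ b
  v0 : 0 ≤ v
  w0 : 0 ≤ w
  cw0 : 0 ≤ cw
  ν0 : 0 ≤ ν
  N : (F.card : ℝ) = ν ^ 2
  /-- `Σ_F |row_a X|² = W - 2κ + N` -/
  xF : ∑ a ∈ F, rw2 (Xm A C) a = Mat.frob (A * C) - 2 * (A * C).trace + F.card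
  xF2 : ∑ a ∈ F, rw2 (Xm A C) a ≤ (cw + 2 * t + ν) ^ 2
  WF : ∑ a ∈ F, rw2 (A * C) a = Mat.frob (A * C)
  W : Mat.frob (A * C) ≤ cw ^ 2
  TF : ∑ a ∈ F, rw2 A a = (A ^ 2).trace
  T : (A ^ 2).trace ≤ t ^ 2
  g4 : ∀ a ∈ g, rw2 A a ≤ 4
  L0 : ∑ p ∈ F ×ˢ F, Lm A C p.2 p.1 = 0
  Lh : |∑ p ∈ P, h p.1 p.2 * Lm A C p.2 p.1| ≤ rh * cw * (b * cw + t)
  Lf : fr F (Lm A C) ≤ b * cw ^ 2 + b * cw
  Ld : nr F (fun a => Lm A C a a) ≤ b * cw ^ 2 + b * cw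
  Lg : nr g (fun a => Lm A C a a) ≤ 3 * cw ^ 2 + 3 * cw
  Lt : |∑ a ∈ F, Lm A C a a| ≤ b * cw ^ 2 + t * cw
  Tτ : |∑ a ∈ F, A a a| ≤ τ
  A2 : fr F (A ^ 2) ≤ b ^ 2
  XX : fr F (Xm A C * (Xm A C)ᵀ) ≤ (cw + 2 * t + ν) ^ 2
  be : ∑ p ∈ P, (1 - h p.1 p.2) * (be2 A p.1 p.2 * rw2 (Xm A C) p.1) ≤ EB s v (cw + 2 * t + ν)
  rho : ∑ p ∈ P, (1 - h p.1 p.2) * rho A C p.1 p.2
    ≤ ER t s v (cw + 2 * t + ν) (2 * w + 2 * ν)

/-- **the sum of `Phi4`** -/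
theorem sum_Phi4 (n : Nf F g A C h P b t s v w cw e rh G Hr ν τ) (hδ : 0 < δ) (hδ1 : δ ≤ 1) :
    ∑ p ∈ P, (1 - h p.1 p.2) * Phi4 A C δ p.1 p.2
      ≤ -(1 - δ) * ((ν ^ 2 - G - Hr) * Mat.frob (A * C)) + 2 * EU b t s cw e rh τ
        + (1 + 4 * δ) * (((A ^ 2).trace + 4 * Hr) *
            (Mat.frob (A * C) - 2 * (A * C).trace + ν ^ 2))
        + 3 / 2 * (b ^ 2 * (cw + 2 * t + ν) ^ 2)
        + 8 * (1 + δ⁻¹) * EB s v (cw + 2 * t + ν)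
        + 6 * δ⁻¹ * ER t s v (cw + 2 * t + ν) (2 * w + 2 * ν) := by
  have hδi : 0 < δ⁻¹ := inv_pos.2 hδ
  have c := n.cx
  have h1 := sum_removal c (fun a => rw2 (A * C) a) (fun a => rw2_nonneg _ a)
  rw [n.WF, n.N] at h1
  have h2 := sum_uu c n.L0 n.Lh n.Lf n.Ld n.Lg
  have h2' : |∑ a ∈ F, A a a| * |∑ a ∈ F, Lm A C a a| ≤ τ * (b * cw ^ 2 + t * cw) :=
    mul_le_mul n.Tτ n.Lt (abs_nonneg _) ((abs_nonneg _).trans n.Tτ)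
  have h3 := sum_pos_main c (fun b => rw2 A b) (fun a => rw2 (Xm A C) a)
    (fun a => rw2_nonneg _ a) (fun a => rw2_nonneg _ a) n.g4
  rw [n.TF, n.xF, n.N] at h3
  have h4 := sum_off c (A ^ 2) (Xm A C * (Xm A C)ᵀ) n.A2 n.XX
  have h5 := n.be
  have h6 := n.rho
  have e : ∑ p ∈ P, (1 - h p.1 p.2) * Phi4 A C δ p.1 p.2
      = -(1 - δ) * ∑ p ∈ P, (1 - h p.1 p.2) * rw2 (A * C) p.1
        + 2 * ∑ p ∈ P, (1 - h p.1 p.2) * uu A C p.1 p.2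
        + (1 + 4 * δ) * ∑ p ∈ P, (1 - h p.1 p.2) * (rw2 A p.2 * rw2 (Xm A C) p.1)
        + ∑ p ∈ P, (1 - h p.1 p.2) * ((A ^ 2) p.1 p.2 * (Xm A C * (Xm A C)ᵀ) p.1 p.2)
        + 8 * (1 + δ⁻¹) * ∑ p ∈ P, (1 - h p.1 p.2) * (be2 A p.1 p.2 * rw2 (Xm A C) p.1)
        + 6 * δ⁻¹ * ∑ p ∈ P, (1 - h p.1 p.2) * Wd.rho A C p.1 p.2 := by
    simp only [Finset.mul_sum, ← Finset.sum_add_distrib]
    refine Finset.sum_congr rfl fun p _ => ?_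
    unfold Phi4
    ring
  rw [e]
  have k1 := mul_le_mul_of_nonneg_left h1 (by linarith : 0 ≤ 1 - δ)
  have k3 := mul_le_mul_of_nonneg_left h3 (by linarith : 0 ≤ 1 + 4 * δ)
  have k5 := mul_le_mul_of_nonneg_left h5 (by positivity : 0 ≤ 8 * (1 + δ⁻¹))
  have k6 := mul_le_mul_of_nonneg_left h6 (by positivity : 0 ≤ 6 * δ⁻¹)
  unfold EU
  rw [abs_le] at h2 h4
  linarith [h2.2, h4.2]

/-- the facts which are used once for the pair -/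
structure Nf2 (F g : Finset ι) (A C h : Matrix ι ι ℝ) (P : Finset (ι × ι))
    (b t s v w cw e rh ν : ℝ) : Prop where
  Yf : fr F (Ym A C) ≤ b ^ 2 * cw
  Yd : nr F (fun a => Ym A C a a) ≤ cw * w
  Yg : nr g (fun a => Ym A C a a) ≤ 2 * b * cw
  Yt : ∑ a ∈ F, Ym A C a a = Mat.frob (A * C)
  Xf : fr F (Xm A C) ≤ cw + 2 * t + ν
  Xd : nr F (fun a => Xm A C a a) ≤ 2 * w + 2 * ν
  Xg : nr g (fun a => Xm A C a a) ≤ 5 * ν
  Xt : ∑ a ∈ F, Xm A C a a = (A * C).trace - F.card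
  /-- for `M = A X` and `N = X C` -/
  Mf : fr F (A * Xm A C) ≤ b * cw + t
  Nf : fr F (Xm A C * C) ≤ b * cw + t
  Md : nr F (fun a => (A * Xm A C) a a) ^ 2 ≤ 2 * (1 + v) * cw ^ 2 + 2 * s ^ 2
  Nd : nr F (fun a => (Xm A C * C) a a) ^ 2 ≤ 2 * (1 + v) * cw ^ 2 + 2 * s ^ 2
  Mg : nr g (fun a => (A * Xm A C) a a) ^ 2 ≤ 8 * cw ^ 2 + 2 * s ^ 2
  Ng : nr g (fun a => (Xm A C * C) a a) ^ 2 ≤ 8 * cw ^ 2 + 2 * s ^ 2
  Mt : ∑ a ∈ F, (A * Xm A C) a a = (A ^ 2 * C).trace - A.trace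
  Nt : ∑ a ∈ F, (Xm A C * C) a a = (C ^ 2 * A).trace - C.trace
  TT : ∑ p ∈ P, (1 - h p.1 p.2) * (Xm A C p.1 p.1 ^ 2 * (al2 A p.1 p.2 * al2 C p.1 p.2)
      + Xm A C p.1 p.2 ^ 2 * (al2 A p.1 p.2 * al2 C p.2 p.1))
    ≤ EQ s v w (cw + 2 * t + ν) (2 * w + 2 * ν)
  blk : ∑ p ∈ P, (1 - h p.1 p.2) * ((A * C) p.1 p.1 ^ 2 + (A * C) p.1 p.2 ^ 2)
    ≤ 3 / 2 * (ν ^ 2 * w ^ 2 + cw ^ 2)

theorem sqrt_bound {x K : ℝ} (hx : x ^ 2 ≤ K) : x ≤ √K := by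
  exact Real.le_sqrt_of_sq_le hx

/-- **the sum of `Psi2`** -/
theorem sum_Psi2 (n : Nf F g A C h P b t s v w cw e rh G Hr ν τ)
    (m : Nf2 F g A C h P b t s v w cw e rh ν) (hδ : 0 < δ) :
    ∑ p ∈ P, (1 - h p.1 p.2) * Psi2 A C δ p.1 p.2
      ≤ 3 / 2 * (ν ^ 2 * w ^ 2 + cw ^ 2)
        + 2 * (((A * C).trace - ν ^ 2) * Mat.frob (A * C)
          + ET b t s w cw e rh ν (cw + 2 * t + ν) (2 * w + 2 * ν))
        + 2 * (((A ^ 2 * C).trace - A.trace) * ((C ^ 2 * A).trace - C.trace)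
          + EPr b t s v cw e rh)
        + 8 * (1 + δ⁻¹) * EQ s v w (cw + 2 * t + ν) (2 * w + 2 * ν) := by
  have hδi : 0 < δ⁻¹ := inv_pos.2 hδ
  have c := n.cx
  have h1 := m.blk
  have h2 := sum_tt c m.Xf m.Yf m.Xd m.Yd m.Xg m.Yg
  rw [m.Xt, m.Yt, n.N] at h2
  have n1 : 0 ≤ 2 * (1 + v) * cw ^ 2 + 2 * s ^ 2 := by
    have := n.v0
    positivity
  have n2 : 0 ≤ 8 * cw ^ 2 + 2 * s ^ 2 := by positivity
  have h3 := sum_PQ c (A * Xm A C) (Xm A C * C) m.Mf m.Nf (sqrt_bound m.Md) (sqrt_bound m.Nd)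
    (sqrt_bound m.Mg) (sqrt_bound m.Ng)
  rw [Real.mul_self_sqrt n1, Real.mul_self_sqrt n2, m.Mt, m.Nt] at h3
  have h4 := m.TT
  have e : ∑ p ∈ P, (1 - h p.1 p.2) * Psi2 A C δ p.1 p.2
      = ∑ p ∈ P, (1 - h p.1 p.2) * ((A * C) p.1 p.1 ^ 2 + (A * C) p.1 p.2 ^ 2)
        + 2 * ∑ p ∈ P, (1 - h p.1 p.2) * tt A C p.1 p.2
        + 2 * ∑ p ∈ P, (1 - h p.1 p.2) * ((A * Xm A C) p.1 p.1 * (Xm A C * C) p.2 p.2
            + (A * Xm A C) p.1 p.2 * (Xm A C * C) p.2 p.1)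
        + 8 * (1 + δ⁻¹) * ∑ p ∈ P, (1 - h p.1 p.2) *
            (Xm A C p.1 p.1 ^ 2 * (al2 A p.1 p.2 * al2 C p.1 p.2)
            + Xm A C p.1 p.2 ^ 2 * (al2 A p.1 p.2 * al2 C p.2 p.1)) := by
    simp only [Finset.mul_sum, ← Finset.sum_add_distrib]
    refine Finset.sum_congr rfl fun p _ => ?_
    unfold Psi2
    ring
  rw [e]
  have k4 := mul_le_mul_of_nonneg_left h4 (by positivity : 0 ≤ 8 * (1 + δ⁻¹))
  unfold ET EPr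
  rw [abs_le] at h2 h3
  linarith [h2.2, h3.2]

/-- symmetric sets of pairs -/
theorem sum_pairs_swap (hP : ∀ p ∈ P, (p.2, p.1) ∈ P) (f : ι → ι → ℝ) :
    ∑ p ∈ P, f p.2 p.1 = ∑ p ∈ P, f p.1 p.2 := by
  refine Finset.sum_nbij' (fun p => (p.2, p.1)) (fun p => (p.2, p.1)) ?_ ?_ ?_ ?_ ?_
  · intro p hp; exact hP p hp
  · intro p hp; exact hP p hp
  · intro p _; rfl
  · intro p _; rfl
  · intro p _; rfl

/-- **the total drift**, abstract form -/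
theorem W_total (n : Nf F g A C h P b t s v w cw e rh G Hr ν τ)
    (n' : Nf F g C A h P b t s v w cw e rh G Hr ν τ)
    (m : Nf2 F g A C h P b t s v w cw e rh ν) (hP : ∀ p ∈ P, (p.2, p.1) ∈ P)
    (hδ : 0 < δ) (hδ1 : δ ≤ 1) :
    ∑ p ∈ P, (1 - h p.1 p.2) * (Mat.frob (upd A p.1 p.2 * upd C p.1 p.2) - Mat.frob (A * C))
      ≤ mainW (ν ^ 2) (A * C).trace (A ^ 2).trace (C ^ 2).trace
          ((A ^ 2 * C).trace - A.trace) ((C ^ 2 * A).trace - C.trace) (Mat.frob (A * C))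
        + errW b t s v w cw e G Hr rh ν τ δ δ⁻¹ := by
  have hδi : 0 < δ⁻¹ := inv_pos.2 hδ
  have c := n.cx
  -- pointwise
  have hpt : ∑ p ∈ P, (1 - h p.1 p.2) *
        (Mat.frob (upd A p.1 p.2 * upd C p.1 p.2) - Mat.frob (A * C))
      ≤ ∑ p ∈ P, (1 - h p.1 p.2) * ((Phi4 A C δ p.1 p.2 + Phi4 A C δ p.2 p.1
        + Phi4 C A δ p.1 p.2 + Phi4 C A δ p.2 p.1) + (Psi2 A C δ p.1 p.2 + Psi2 A C δ p.2 p.1)) := by
    refine Finset.sum_le_sum fun p hp => ?_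
    obtain ⟨o0, o1, o2⟩ := c.ok p hp
    have := W_pt o0 c.hA c.hC o1 o2 hδ
    refine mul_le_mul_of_nonneg_left (by linarith) ?_
    have := weight_ge c p.1 p.2
    linarith
  refine hpt.trans ?_
  have hsw : ∀ f : ι → ι → ℝ, ∑ p ∈ P, (1 - h p.1 p.2) * f p.2 p.1
      = ∑ p ∈ P, (1 - h p.1 p.2) * f p.1 p.2 := by
    intro f
    rw [← sum_pairs_swap hP (fun a b => (1 - h a b) * f a b)]
    refine Finset.sum_congr rfl fun p _ => ?_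
    rw [c.hs.apply p.1 p.2]
  have e : ∑ p ∈ P, (1 - h p.1 p.2) * ((Phi4 A C δ p.1 p.2 + Phi4 A C δ p.2 p.1
        + Phi4 C A δ p.1 p.2 + Phi4 C A δ p.2 p.1) + (Psi2 A C δ p.1 p.2 + Psi2 A C δ p.2 p.1))
      = 2 * ∑ p ∈ P, (1 - h p.1 p.2) * Phi4 A C δ p.1 p.2
        + 2 * ∑ p ∈ P, (1 - h p.1 p.2) * Phi4 C A δ p.1 p.2
        + 2 * ∑ p ∈ P, (1 - h p.1 p.2) * Psi2 A C δ p.1 p.2 := by
    have e1 := hsw (Phi4 A C δ)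
    have e2 := hsw (Phi4 C A δ)
    have e3 := hsw (Psi2 A C δ)
    simp only [mul_add, Finset.sum_add_distrib]
    rw [e1, e2, e3]
    ring
  rw [e]
  have k1 := sum_Phi4 n hδ hδ1
  have k2 := sum_Phi4 n' hδ hδ1
  have k3 := sum_Psi2 n m hδ
  -- symmetry of `W` and `κ`
  have hW : Mat.frob (C * A) = Mat.frob (A * C) := Mat.frob_mul_comm c.hC c.hA
  have hκ : (C * A).trace = (A * C).trace := Matrix.trace_mul_comm _ _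
  rw [hW, hκ] at k2
  have hWc := n.W
  have hW0 := Mat.frob_nonneg (A * C)
  have hX0 : 0 ≤ Mat.frob (A * C) - 2 * (A * C).trace + ν ^ 2 := by
    rw [← n.N, ← n.xF]; exact Finset.sum_nonneg fun a _ => rw2_nonneg _ a
  have hX1 : Mat.frob (A * C) - 2 * (A * C).trace + ν ^ 2 ≤ (cw + 2 * t + ν) ^ 2 := by
    rw [← n.N, ← n.xF]; exact n.xF2
  have hHr := c.Hr0
  have hG := c.G0
  have hT1 := n.T
  have hT2 := n'.T
  -- the three replacements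
  have r1 : 4 * (δ * ν ^ 2 + G + Hr) * Mat.frob (A * C) ≤ 4 * (δ * ν ^ 2 + G + Hr) * cw ^ 2 :=
    mul_le_mul_of_nonneg_left hWc (by positivity)
  have r1' : 0 ≤ δ * (G + Hr) * Mat.frob (A * C) := by positivity
  have r2 : 8 * δ * (((A ^ 2).trace + (C ^ 2).trace) *
      (Mat.frob (A * C) - 2 * (A * C).trace + ν ^ 2))
      ≤ 8 * δ * ((2 * t ^ 2) * (cw + 2 * t + ν) ^ 2) := by
    refine mul_le_mul_of_nonneg_left ?_ (by positivity)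
    exact mul_le_mul (by linarith) hX1 hX0 (by positivity)
  have r3 : 16 * (1 + 4 * δ) * (Hr * (Mat.frob (A * C) - 2 * (A * C).trace + ν ^ 2))
      ≤ 16 * (1 + 4 * δ) * (Hr * (cw + 2 * t + ν) ^ 2) :=
    mul_le_mul_of_nonneg_left (mul_le_mul_of_nonneg_left hX1 hHr) (by positivity)
  unfold mainW errW
  linarith [k1, k2, k3, r1, r1', r2, r3]

end Vale.Agent.P049.TS.Wd
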