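import Vale.Agent.P049.TS.Tilt.Proj
import Vale.Agent.P049.TS.Drift.Arr

/-!
Block W: the tilt as an operator.

* `opB_hT`: the operator norm of `hT`;
* `row_hT`: its absolute row sums;
* `prod_hT`: weighted sums of product arrays.
-/

set_option linter.unusedSectionVars false

namespace Vale.Agent.P049.TS.Wd

open Matrix Finset
open Vale.Agent.P049.TS.Tilt (Two TPar hT RT eT gd rbs)
open Vale.Agent.P049.TS.D12 (nr fr)

variable {ι : Type*} [Fintype ι] [DecidableEq ι]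

/-- `‖A + B‖ ≤ ‖A‖ + ‖B‖` -/
theorem opB_add' {A B : Matrix ι ι ℝ} {x y : ℝ} (hx : 0 ≤ x) (hy : 0 ≤ y) (hA : Mat.OpB A x)
    (hB : Mat.OpB B y) : Mat.OpB (A + B) (x + y) := by
  intro v
  rw [Matrix.add_mulVec]
  have h1 := hA v
  have h2 := hB v
  have h3 := Mat.abs_dot_le (A *ᵥ v) (B *ᵥ v)
  have h4 := hA.sqrt_dot_le hx v
  have h5 := hB.sqrt_dot_le hy v
  have h6 : √((A *ᵥ v) ⬝ᵥ (A *ᵥ v)) * √((B *ᵥ v) ⬝ᵥ (B *ᵥ v)) ≤
      (x * √(v ⬝ᵥ v)) * (y * √(v ⬝ᵥ v)) :=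
    mul_le_mul h4 h5 (Real.sqrt_nonneg _) (mul_nonneg hx (Real.sqrt_nonneg _))
  have h7 : (x * √(v ⬝ᵥ v)) * (y * √(v ⬝ᵥ v)) = x * y * (v ⬝ᵥ v) := by
    calc _ = x * y * (√(v ⬝ᵥ v) * √(v ⬝ᵥ v)) := by ring
      _ = _ := by rw [Real.mul_self_sqrt (Mat.dot_self_nonneg v)]
  have h8 : (A *ᵥ v) ⬝ᵥ (B *ᵥ v) ≤ x * y * (v ⬝ᵥ v) := by
    rw [← h7]
    exact (le_abs_self _).trans (h3.trans h6)
  have h9 : (B *ᵥ v) ⬝ᵥ (A *ᵥ v) = (A *ᵥ v) ⬝ᵥ (B *ᵥ v) := dotProduct_comm _ _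
  simp only [dotProduct_add, add_dotProduct]
  rw [h9]
  nlinarith

theorem opB_neg' {A : Matrix ι ι ℝ} {x : ℝ} (hA : Mat.OpB A x) : Mat.OpB (-A) x := by
  intro v
  have := hA v
  simpa [Matrix.neg_mulVec] using this

theorem opB_smul' {A : Matrix ι ι ℝ} {x c : ℝ} (hA : Mat.OpB A x) : Mat.OpB (c • A) (c * x) := by
  intro v
  have := mul_le_mul_of_nonneg_left (hA v) (sq_nonneg c)
  simp only [Matrix.smul_mulVec, dotProduct_smul, smul_dotProduct, smul_eq_mul]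
  nlinarith

variable {F : Finset ι} {forb : ι → ι → Prop} {Zp Zm : Matrix ι ι ℝ} {lam b t s v cw Δ : ℝ}

/-- the operator norm of the tilt -/
theorem opB_hT (h : Two F Zp Zm b t s v cw) (hT' : TPar F forb lam Δ) :
    Mat.OpB (hT F forb Zp Zm lam) (lam * (2 * b + 9 / 4 * v) + rbs lam Δ s) := by
  rw [Tilt.hT_eq, sub_eq_add_neg, sub_eq_add_neg]
  have h1 := opB_add' (by have := h.b0; positivity) (by have := h.v0; positivity) h.opB_H
    (opB_neg' h.opB_R)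
  exact opB_add' (by have := hT'.lam0; have := h.b0; have := h.v0; positivity)
    (Tilt.rbs_nonneg hT') (opB_smul' h1) (opB_neg' (h.opE hT'))

/-- the absolute row sums of the tilt -/
theorem row_hT (hp : Zp.IsSymm) (hm : Zm.IsSymm) (hl : 0 < lam) {ν : ℝ} (hν : 0 ≤ ν)
    (hF : (F.card : ℝ) ≤ ν ^ 2) (a : ι) :
    ∑ b ∈ F, |hT F forb Zp Zm lam a b| ≤ 4 * lam * ν := by
  by_cases ha : a ∈ gd F Zp Zm
  · have h1 : ∑ b ∈ F, |hT F forb Zp Zm lam a b| ≤ ∑ b ∈ F, lam * |Zp a b + Zm a b| :=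
      Finset.sum_le_sum fun b _ => Tilt.abs_hT_le hl a b
    rw [← Finset.mul_sum] at h1
    have h2 := Real.sum_mul_le_sqrt_mul_sqrt F (fun _ => (1 : ℝ)) (fun b => |Zp a b + Zm a b|)
    simp only [one_mul, one_pow, Finset.sum_const, nsmul_eq_mul, mul_one, sq_abs] at h2
    have h3 : √(F.card : ℝ) ≤ ν := by
      rw [← Real.sqrt_sq hν]; exact Real.sqrt_le_sqrt hF
    have h4 : √(∑ b ∈ F, (Zp a b + Zm a b) ^ 2) ≤ 4 := by
      rw [show (4 : ℝ) = √(4 ^ 2) from (Real.sqrt_sq (by norm_num)).symm]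
      apply Real.sqrt_le_sqrt
      refine (Finset.sum_le_sum_of_subset_of_nonneg (Finset.subset_univ F)
        fun _ _ _ => sq_nonneg _).trans ((Tilt.rowH_good_le hp hm ha).trans (by norm_num))
    have h5 : √(F.card : ℝ) * √(∑ b ∈ F, (Zp a b + Zm a b) ^ 2) ≤ ν * 4 :=
      mul_le_mul h3 h4 (Real.sqrt_nonneg _) hν
    calc _ ≤ _ := h1
      _ ≤ lam * (ν * 4) := mul_le_mul_of_nonneg_left (h2.trans h5) hl.le
      _ = _ := by ring
  · have h0 : ∀ b ∈ F, |hT F forb Zp Zm lam a b| = 0 := by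
      intro b _
      rw [Tilt.hT_apply_bad (fun hh => ha hh.1), abs_zero]
    rw [Finset.sum_eq_zero h0]
    positivity

/-- weighted sums of a product array: the weight `h` lives on `g × g` and has operator norm
at most `rh`; at most `e²` pairs of `F × F` are missing -/
theorem prod_hT {P : Finset (ι × ι)} {g : Finset ι} {h : Matrix ι ι ℝ} {e rh : ℝ}
    (hP : P ⊆ F ×ˢ F) (he : 0 ≤ e) (hE : (((F ×ˢ F) \ P).card : ℝ) ≤ e ^ 2)
    (hh : ∀ a b, ¬ ((a, b) ∈ P ∧ a ∈ g ∧ b ∈ g) → h a b = 0) (hr : 0 ≤ rh) (ho : Mat.OpB h rh)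
    (u v : ι → ℝ) :
    |∑ p ∈ P, (1 - h p.1 p.2) * (u p.1 * v p.2) - (∑ a ∈ F, u a) * ∑ a ∈ F, v a| ≤
      e * (nr F u * nr F v) + rh * (nr g u * nr g v) := by
  have h1 : |∑ p ∈ P, u p.1 * v p.2 - ∑ p ∈ F ×ˢ F, u p.1 * v p.2| ≤
      √(((F ×ˢ F) \ P).card : ℝ) * fr F (fun a b => u a * v b) :=
    D12.abs_sum_adm_sub_le hP (fun a b => u a * v b)
  rw [D12.sum_prod_full F u v, D12.fr_prod F u v] at h1
  have h2 : √(((F ×ˢ F) \ P).card : ℝ) ≤ e := by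
    rw [← Real.sqrt_sq he]; exact Real.sqrt_le_sqrt hE
  have h3 := h1.trans (mul_le_mul_of_nonneg_right h2
    (mul_nonneg (D12.nr_nonneg F u) (D12.nr_nonneg F v)))
  -- the tilt
  have h4 : ∑ p ∈ P, h p.1 p.2 * (u p.1 * v p.2) =
      (fun a => if a ∈ g then u a else 0) ⬝ᵥ (h *ᵥ fun b => if b ∈ g then v b else 0) := by
    have e1 : (fun a => if a ∈ g then u a else 0) ⬝ᵥ (h *ᵥ fun b => if b ∈ g then v b else 0) =
        ∑ p : ι × ι, h p.1 p.2 * (u p.1 * v p.2) := by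
      rw [Fintype.sum_prod_type]
      simp only [dotProduct, Matrix.mulVec, Finset.mul_sum]
      refine Finset.sum_congr rfl fun a _ => Finset.sum_congr rfl fun b _ => ?_
      by_cases ha : a ∈ g
      · by_cases hb : b ∈ g
        · simp only [ha, hb, if_true]; ring
        · rw [hh a b (fun k => hb k.2.2)]; ring
      · rw [hh a b (fun k => ha k.2.1)]; ring
    rw [e1]
    refine Finset.sum_subset (Finset.subset_univ P) fun p _ hp => ?_
    rw [hh p.1 p.2 (fun k => hp k.1), zero_mul]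
  have h5 := ho.abs_bilin_le hr (fun a => if a ∈ g then u a else 0)
    (fun b => if b ∈ g then v b else 0)
  have h6 : ∀ x : ι → ℝ, √((fun a => if a ∈ g then x a else 0) ⬝ᵥ
      (fun a => if a ∈ g then x a else 0)) = nr g x := by
    intro x
    unfold D12.nr
    congr 1
    simp only [dotProduct]
    rw [← Finset.sum_filter_add_sum_filter_not Finset.univ (fun a => a ∈ g)]
    have z : ∑ a ∈ Finset.univ.filter (fun a => a ∉ g),
        ((if a ∈ g then x a else 0) * if a ∈ g then x a else 0) = 0 := by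
      refine Finset.sum_eq_zero fun a ha => ?_
      rw [if_neg (Finset.mem_filter.1 ha).2, mul_zero]
    rw [z, add_zero, Finset.filter_mem_eq_inter, Finset.univ_inter]
    refine Finset.sum_congr rfl fun a ha => ?_
    rw [if_pos ha, sq]
  rw [← h4, h6, h6] at h5
  have hdec : ∑ p ∈ P, (1 - h p.1 p.2) * (u p.1 * v p.2) =
      ∑ p ∈ P, u p.1 * v p.2 - ∑ p ∈ P, h p.1 p.2 * (u p.1 * v p.2) := by
    rw [← Finset.sum_sub_distrib]
    exact Finset.sum_congr rfl fun p _ => by ring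
  rw [hdec]
  rw [abs_le] at h3 h5 ⊢
  constructor
  · linarith [h3.1, h5.2]
  · linarith [h3.2, h5.1]

/-- the tilt satisfies the hypothesis of `prod_hT` -/
theorem hT_support (a b : ι)
    (h : ¬ ((a, b) ∈ adm F forb Zp Zm ∧ a ∈ gd F Zp Zm ∧ b ∈ gd F Zp Zm)) :
    hT F forb Zp Zm lam a b = 0 := by
  unfold Tilt.hT
  rw [if_neg h]

end Vale.Agent.P049.TS.Wd
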