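import Vale.Agent.P049.TS.Shell.Join4
import Vale.Agent.P049.TS.Avg.Adm
import Vale.Agent.P049.TS.Mat.Basic

/-!
Block W, part 1: the Frobenius inner product and the restriction inequality.
-/

set_option linter.unusedSectionVars false

namespace Vale.Agent.P049.TS.Wd

open Matrix Finset

variable {ι : Type*} [Fintype ι] [DecidableEq ι]

/-- the Frobenius inner product -/
def ip (M N : Matrix ι ι ℝ) : ℝ := ∑ i, ∑ j, M i j * N i j

theorem ip_self (M : Matrix ι ι ℝ) : ip M M = Mat.frob M := by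
  unfold ip Mat.frob
  exact Finset.sum_congr rfl fun i _ => Finset.sum_congr rfl fun j _ => (sq _).symm

theorem ip_comm (M N : Matrix ι ι ℝ) : ip M N = ip N M := by
  unfold ip
  exact Finset.sum_congr rfl fun i _ => Finset.sum_congr rfl fun j _ => mul_comm _ _

theorem ip_add (M N K : Matrix ι ι ℝ) : ip M (N + K) = ip M N + ip M K := by
  unfold ip
  simp only [Matrix.add_apply, mul_add, Finset.sum_add_distrib]

theorem ip_smul (M N : Matrix ι ι ℝ) (c : ℝ) : ip M (c • N) = c * ip M N := by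
  unfold ip
  simp only [Matrix.smul_apply, smul_eq_mul, Finset.mul_sum]
  exact Finset.sum_congr rfl fun i _ => Finset.sum_congr rfl fun j _ => by ring

theorem ip_add_left (M N K : Matrix ι ι ℝ) : ip (M + N) K = ip M K + ip N K := by
  rw [ip_comm, ip_add, ip_comm K M, ip_comm K N]

theorem ip_transpose (M N : Matrix ι ι ℝ) : ip Mᵀ Nᵀ = ip M N := by
  unfold ip
  rw [Finset.sum_comm]
  rfl

theorem frob_add (M N : Matrix ι ι ℝ) :
    Mat.frob (M + N) = Mat.frob M + 2 * ip M N + Mat.frob N := by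
  rw [← ip_self, ip_add, ip_add_left, ip_add_left, ip_self, ip_self, ip_comm N M]
  ring

theorem frob_smul (c : ℝ) (M : Matrix ι ι ℝ) : Mat.frob (c • M) = c ^ 2 * Mat.frob M := by
  rw [← ip_self, ip_smul, ip_comm, ip_smul, ip_self]
  ring

/-- rank one matrices built from rows -/
theorem ip_vec (K : Matrix ι ι ℝ) (M N : Matrix ι ι ℝ) (a b : ι) :
    ip K (vecMulVec (M a) (N b)) = (M * K * Nᵀ) a b := by
  unfold ip
  rw [Matrix.mul_apply]
  simp only [Matrix.mul_apply, Matrix.vecMulVec_apply, Matrix.transpose_apply, Finset.sum_mul]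
  rw [Finset.sum_comm]
  exact Finset.sum_congr rfl fun i _ => Finset.sum_congr rfl fun j _ => by ring

theorem ip_vec_vec (u v u' v' : ι → ℝ) :
    ip (vecMulVec u v) (vecMulVec u' v') = (u ⬝ᵥ u') * (v ⬝ᵥ v') := by
  unfold ip
  simp only [Matrix.vecMulVec_apply, dotProduct, Finset.sum_mul_sum]
  exact Finset.sum_congr rfl fun i _ => Finset.sum_congr rfl fun j _ => by ring

theorem frob_vec (u v : ι → ℝ) : Mat.frob (vecMulVec u v) = (u ⬝ᵥ u) * (v ⬝ᵥ v) := by
  rw [← ip_self, ip_vec_vec]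

theorem row_dot (M N : Matrix ι ι ℝ) (a b : ι) : M a ⬝ᵥ N b = (M * Nᵀ) a b := by
  rw [Matrix.mul_apply]; rfl

/-- `‖x + y‖² ≤ (1 + δ) ‖x‖² + (1 + δ⁻¹) ‖y‖²` -/
theorem frob_add_le (M N : Matrix ι ι ℝ) {δ : ℝ} (hδ : 0 < δ) :
    Mat.frob (M + N) ≤ (1 + δ) * Mat.frob M + (1 + δ⁻¹) * Mat.frob N := by
  unfold Mat.frob
  rw [Finset.mul_sum, Finset.mul_sum, ← Finset.sum_add_distrib]
  refine Finset.sum_le_sum fun i _ => ?_
  rw [Finset.mul_sum, Finset.mul_sum, ← Finset.sum_add_distrib]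
  refine Finset.sum_le_sum fun j _ => ?_
  rw [Matrix.add_apply]
  have h : 0 ≤ δ * (M i j - δ⁻¹ * N i j) ^ 2 := mul_nonneg hδ.le (sq_nonneg _)
  have e : δ * (M i j - δ⁻¹ * N i j) ^ 2
      = δ * M i j ^ 2 - 2 * (M i j * N i j) + δ⁻¹ * N i j ^ 2 := by
    field_simp
    ring
  rw [e] at h
  linarith

/-- the sum of squares of eight matrices -/
theorem frob_sum8_le (M : Fin 8 → Matrix ι ι ℝ) :
    Mat.frob (∑ k, M k) ≤ 8 * ∑ k, Mat.frob (M k) := by
  unfold Mat.frob
  have e : ∑ k : Fin 8, ∑ i, ∑ j, M k i j ^ 2 = ∑ i, ∑ j, ∑ k : Fin 8, M k i j ^ 2 := by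
    rw [Finset.sum_comm]
    exact Finset.sum_congr rfl fun i _ => Finset.sum_comm
  rw [e, Finset.mul_sum]
  refine Finset.sum_le_sum fun i _ => ?_
  rw [Finset.mul_sum]
  refine Finset.sum_le_sum fun j _ => ?_
  rw [Matrix.sum_apply]
  have := Finset.sum_mul_sq_le_sq_mul_sq Finset.univ (fun _ : Fin 8 => (1 : ℝ))
    (fun k => M k i j)
  simpa using this

/-- the sum of the squares of the entries in row `a` -/
def rw2 (M : Matrix ι ι ℝ) (a : ι) : ℝ := ∑ j, M a j ^ 2

theorem rw2_nonneg (M : Matrix ι ι ℝ) (a : ι) : 0 ≤ rw2 M a :=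
  Finset.sum_nonneg fun _ _ => sq_nonneg _

theorem rw2_eq (M : Matrix ι ι ℝ) (a : ι) : rw2 M a = M a ⬝ᵥ M a := by
  unfold rw2 dotProduct
  exact Finset.sum_congr rfl fun _ _ => sq _

theorem sum_rw2 (M : Matrix ι ι ℝ) : ∑ a, rw2 M a = Mat.frob M := rfl

/-- restricted Frobenius norms: `M'` is `M + D` with the rows and columns `a, b` deleted -/
theorem frob_restrict_le {a b : ι} (hab : a ≠ b) (M D M' : Matrix ι ι ℝ) {δ : ℝ} (hδ : 0 < δ)
    (hM : ∀ i j, M' i j = if i = a ∨ i = b ∨ j = a ∨ j = b then 0 else M i j + D i j) :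
    Mat.frob M' ≤ Mat.frob M + 2 * ip M D + Mat.frob D
      - (1 - δ) * (rw2 M a + rw2 M b + rw2 Mᵀ a + rw2 Mᵀ b)
      + (1 - δ) * (M a a ^ 2 + M a b ^ 2 + M b a ^ 2 + M b b ^ 2)
      + δ⁻¹ * (rw2 D a + rw2 D b + rw2 Dᵀ a + rw2 Dᵀ b) := by
  have hδi : 0 < δ⁻¹ := inv_pos.2 hδ
  have key : ∀ x d : ℝ, -(x + d) ^ 2 ≤ -(1 - δ) * x ^ 2 + δ⁻¹ * d ^ 2 := by
    intro x d
    have h : 0 ≤ δ * (x + δ⁻¹ * d) ^ 2 := mul_nonneg hδ.le (sq_nonneg _)
    have e : δ * (x + δ⁻¹ * d) ^ 2 = δ * x ^ 2 + 2 * (x * d) + δ⁻¹ * d ^ 2 := by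
      field_simp
      ring
    rw [e] at h
    nlinarith [sq_nonneg d]
  have hpt : ∀ i j, M' i j ^ 2 ≤ (M i j ^ 2 + 2 * (M i j * D i j) + D i j ^ 2)
      + ((if i = a then -(1 - δ) * M i j ^ 2 + δ⁻¹ * D i j ^ 2 else 0)
      + (if i = b then -(1 - δ) * M i j ^ 2 + δ⁻¹ * D i j ^ 2 else 0)
      + (if j = a then -(1 - δ) * M i j ^ 2 + δ⁻¹ * D i j ^ 2 else 0)
      + (if j = b then -(1 - δ) * M i j ^ 2 + δ⁻¹ * D i j ^ 2 else 0))
      + (if i = a then (if j = a then (1 - δ) * M i j ^ 2 else 0)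
          + (if j = b then (1 - δ) * M i j ^ 2 else 0) else 0)
      + (if i = b then (if j = a then (1 - δ) * M i j ^ 2 else 0)
          + (if j = b then (1 - δ) * M i j ^ 2 else 0) else 0) := by
    intro i j
    rw [hM i j]
    have k := key (M i j) (D i j)
    have kd := mul_nonneg hδi.le (sq_nonneg (D i j))
    have hab' := hab.symm
    by_cases h1 : i = a
    · subst h1
      by_cases h3 : j = i
      · subst h3
        simp [hab]
        nlinarith
      · by_cases h4 : j = b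
        · subst h4
          simp [hab, h3]
          nlinarith
        · simp [hab, h3, h4]
          nlinarith
    · by_cases h2 : i = b
      · subst h2
        by_cases h3 : j = a
        · subst h3
          simp [h1, hab]
          nlinarith
        · by_cases h4 : j = i
          · subst h4
            simp [h1]
            nlinarith
          · simp [h1, h3, h4]
            nlinarith
      · by_cases h3 : j = a
        · subst h3
          simp [h1, h2, hab]
          nlinarith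
        · by_cases h4 : j = b
          · subst h4
            simp [h1, h2, h3]
            nlinarith
          · simp [h1, h2, h3, h4]
            nlinarith
  have hsum : Mat.frob M' ≤ _ := Finset.sum_le_sum fun i (_ : i ∈ Finset.univ) =>
    Finset.sum_le_sum fun j (_ : j ∈ Finset.univ) => hpt i j
  refine hsum.trans (le_of_eq ?_)
  simp only [Finset.sum_add_distrib, Finset.sum_ite_eq', Finset.mem_univ, if_true]
  have e1 : ∀ (c : ι) (f : ι → ι → ℝ),
      ∑ i, ∑ j, (if i = c then f i j else 0) = ∑ j, f c j := by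
    intro c f
    rw [Finset.sum_comm]
    simp [Finset.sum_ite_eq']
  have e2 : ∀ (c : ι) (f : ι → ι → ℝ),
      ∑ i, ∑ j, (if j = c then f i j else 0) = ∑ i, f i c := by
    intro c f
    simp [Finset.sum_ite_eq']
  have e3 : ∀ (c : ι) (f : ι → ι → ℝ),
      ∑ i, ∑ j, (if i = c then (if j = a then f i j else 0) + (if j = b then f i j else 0)
        else 0) = f c a + f c b := by
    intro c f
    rw [e1 c]
    simp [Finset.sum_add_distrib, Finset.sum_ite_eq']
  rw [e1, e1]
  rw [e3 a (fun i j => (1 - δ) * M i j ^ 2), e3 b (fun i j => (1 - δ) * M i j ^ 2)]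
  unfold rw2 ip Mat.frob
  simp only [Finset.sum_add_distrib, ← Finset.mul_sum, Matrix.transpose_apply]
  ring

end Vale.Agent.P049.TS.Wd
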