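import Vale.Agent.P049.TS.W.Pt
import Vale.Agent.P049.TS.Drift.T12c

/-!
Block W, part 3: weighted sums over the admissible pairs of the arrays which carry main parts.
-/

set_option linter.unusedSectionVars false

namespace Vale.Agent.P049.TS.Wd

open Matrix Finset D12

variable {ι : Type*} [Fintype ι] [DecidableEq ι]

/-- the data of an average over pairs: `P` = admissible pairs, weights `1 - h` -/
structure Cx (F g : Finset ι) (A C h : Matrix ι ι ℝ) (P : Finset (ι × ι))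
    (t s e rh G Hr : ℝ) : Prop where
  hA : A.IsSymm
  hC : C.IsSymm
  sub : P ⊆ F ×ˢ F
  ok : ∀ p ∈ P, p.1 ≠ p.2 ∧ PairOK A p.1 p.2 ∧ PairOK C p.1 p.2
  t0 : 0 ≤ t
  s0 : 0 ≤ s
  e0 : 0 ≤ e
  rh0 : 0 ≤ rh
  G0 : 0 ≤ G
  Hr0 : 0 ≤ Hr
  card : (((F ×ˢ F) \ P).card : ℝ) ≤ e ^ 2
  half : ∀ a b, |h a b| ≤ 1 / 2
  hP : ∀ p : ι × ι, p ∉ P → h p.1 p.2 = 0
  hg : ∀ a b, h a b ≠ 0 → a ∈ g ∧ b ∈ g
  gF : g ⊆ F
  hs : h.IsSymm
  op : Mat.OpB h rh
  deg : ∀ a ∈ F, (((((F ×ˢ F) \ P).filter fun p => p.1 = a).card : ℕ) : ℝ) ≤ G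
  row : ∀ a ∈ F, ∑ b ∈ F, |h a b| ≤ Hr
  frA : fr F A ≤ t
  frC : fr F C ≤ t
  sA : nr F (fun a => A a a) ≤ s
  sC : nr F (fun a => C a a) ≤ s

variable {F g : Finset ι} {A C h : Matrix ι ι ℝ} {P : Finset (ι × ι)} {t s e rh G Hr : ℝ}

theorem Cx.swap (c : Cx F g A C h P t s e rh G Hr) : Cx F g C A h P t s e rh G Hr :=
  { c with
    hA := c.hC
    hC := c.hA
    ok := fun p hp => ⟨(c.ok p hp).1, (c.ok p hp).2.2, (c.ok p hp).2.1⟩
    frA := c.frC
    frC := c.frA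
    sA := c.sC
    sC := c.sA }

/-! ### generic sums -/

theorem weight_le (c : Cx F g A C h P t s e rh G Hr) (a b : ι) : 1 - h a b ≤ 3 / 2 := by
  have := abs_le.1 (c.half a b)
  linarith [this.1]

theorem weight_ge (c : Cx F g A C h P t s e rh G Hr) (a b : ι) : 1 / 2 ≤ 1 - h a b := by
  have := abs_le.1 (c.half a b)
  linarith [this.2]

/-- a bilinear sum against `h` -/
theorem sum_h_prod (c : Cx F g A C h P t s e rh G Hr) (u v : ι → ℝ) :
    |∑ p ∈ P, h p.1 p.2 * (u p.1 * v p.2)| ≤ rh * (nr g u * nr g v) := by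
  classical
  set u' : ι → ℝ := fun a => if a ∈ g then u a else 0 with hu'
  set v' : ι → ℝ := fun a => if a ∈ g then v a else 0 with hv'
  have e1 : ∑ p ∈ P, h p.1 p.2 * (u p.1 * v p.2) = u' ⬝ᵥ (h *ᵥ v') := by
    have : u' ⬝ᵥ (h *ᵥ v') = ∑ p : ι × ι, h p.1 p.2 * (u' p.1 * v' p.2) := by
      rw [Fintype.sum_prod_type]
      simp only [dotProduct, Matrix.mulVec, Finset.mul_sum]
      exact Finset.sum_congr rfl fun a _ => Finset.sum_congr rfl fun b _ => by ring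
    rw [this, ← Finset.sum_subset (Finset.subset_univ P) (fun p _ hp => by rw [c.hP p hp, zero_mul])]
    refine Finset.sum_congr rfl fun p _ => ?_
    by_cases hz : h p.1 p.2 = 0
    · rw [hz, zero_mul, zero_mul]
    · obtain ⟨h1, h2⟩ := c.hg _ _ hz
      simp [hu', hv', h1, h2]
  have e2 : ∀ w : ι → ℝ, √((fun a => if a ∈ g then w a else 0) ⬝ᵥ (fun a => if a ∈ g then w a else 0))
      = nr g w := by
    intro w
    unfold nr
    congr 1
    simp only [dotProduct]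
    rw [← Finset.sum_subset (Finset.subset_univ g) (fun a _ ha => by simp [ha])]
    exact Finset.sum_congr rfl fun a ha => by simp [ha, sq]
  rw [e1]
  refine (c.op.abs_bilin_le c.rh0 u' v').trans (le_of_eq ?_)
  rw [hu', hv', e2, e2]

/-- **the product lemma** -/
theorem prod_sum (c : Cx F g A C h P t s e rh G Hr) (u v : ι → ℝ) :
    |∑ p ∈ P, (1 - h p.1 p.2) * (u p.1 * v p.2) - (∑ a ∈ F, u a) * ∑ b ∈ F, v b|
      ≤ e * (nr F u * nr F v) + rh * (nr g u * nr g v) := by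
  have h1 := sum_h_prod c u v
  have h2 := abs_sum_adm_sub_le c.sub (fun a b => u a * v b)
  rw [sum_prod_full, fr_prod] at h2
  have h3 : √(((F ×ˢ F) \ P).card : ℝ) ≤ e := by
    rw [← Real.sqrt_sq c.e0]; exact Real.sqrt_le_sqrt c.card
  have h4 := mul_le_mul_of_nonneg_right h3 (mul_nonneg (nr_nonneg F u) (nr_nonneg F v))
  have e1 : ∑ p ∈ P, (1 - h p.1 p.2) * (u p.1 * v p.2)
      = ∑ p ∈ P, u p.1 * v p.2 - ∑ p ∈ P, h p.1 p.2 * (u p.1 * v p.2) := by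
    rw [← Finset.sum_sub_distrib]
    exact Finset.sum_congr rfl fun p _ => by ring
  rw [e1]
  rw [abs_le] at h1 h2 ⊢
  constructor <;> linarith [h1.1, h1.2, h2.1, h2.2]

/-- absolute values with weights -/
theorem sum_om_abs_le (c : Cx F g A C h P t s e rh G Hr) (f : ι → ι → ℝ) :
    |∑ p ∈ P, (1 - h p.1 p.2) * f p.1 p.2| ≤ 3 / 2 * ∑ p ∈ P, |f p.1 p.2| := by
  refine (Finset.abs_sum_le_sum_abs _ _).trans ?_
  rw [Finset.mul_sum]
  refine Finset.sum_le_sum fun p _ => ?_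
  rw [abs_mul]
  have h1 := weight_le c p.1 p.2
  have h2 := weight_ge c p.1 p.2
  rw [abs_of_nonneg (by linarith)]
  exact mul_le_mul_of_nonneg_right h1 (abs_nonneg _)

/-- `Σ τ |f| ≤ (t + s²) ‖f‖` -/
theorem sum_tau_le (c : Cx F g A C h P t s e rh G Hr) (f : ι → ι → ℝ) :
    ∑ p ∈ P, (|A p.1 p.2| + |A p.1 p.1 * A p.2 p.2|) * |f p.1 p.2| ≤ (t + s ^ 2) * fr F f := by
  refine (sum_small_mul_le (Z := A) c.sub f).trans ?_
  refine mul_le_mul_of_nonneg_right (add_le_add c.frA ?_) (fr_nonneg _ _)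
  exact pow_le_pow_left₀ (nr_nonneg _ _) c.sA 2

/-- a transposed array has the same norm -/
theorem fr_swap (F : Finset ι) (f : ι → ι → ℝ) : fr F (fun a b => f b a) = fr F f := by
  unfold fr
  congr 1
  rw [Finset.sum_product, Finset.sum_product_right]

/-! ### `uu` -/

theorem rq_eq (Z : Matrix ι ι ℝ) (a b : ι) :
    rq Z a b = Z b b + ((al Z a b)⁻¹ - 1) * Z b b := by
  unfold rq; ring

/-- **first order term** -/
theorem sum_uu (c : Cx F g A C h P t s e rh G Hr)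
    (hfull : ∑ p ∈ F ×ˢ F, Lm A C p.2 p.1 = 0) {Hl l ld lg : ℝ}
    (hh : |∑ p ∈ P, h p.1 p.2 * Lm A C p.2 p.1| ≤ Hl)
    (hl : fr F (Lm A C) ≤ l) (hd : nr F (fun a => Lm A C a a) ≤ ld)
    (hlg : nr g (fun a => Lm A C a a) ≤ lg) :
    |∑ p ∈ P, (1 - h p.1 p.2) * uu A C p.1 p.2|
      ≤ |∑ a ∈ F, A a a| * |∑ a ∈ F, Lm A C a a| + Hl + (e + 3 * (t + s ^ 2)) * l
        + (e * s + 6 * (t + s ^ 2) * s) * ld + rh * s * lg := by
  set L := Lm A C with hL
  have hl0 : 0 ≤ l := (fr_nonneg _ _).trans hl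
  have hd0 : 0 ≤ ld := (nr_nonneg _ _).trans hd
  have hts : 0 ≤ t + s ^ 2 := add_nonneg c.t0 (sq_nonneg s)
  have sw : fr F (fun a b => L b a) = fr F L := fr_swap F L
  -- (a)
  have a1 := abs_sum_adm_sub_le c.sub (fun a b => L b a)
  rw [hfull, sub_zero, sw] at a1
  have h3 : √(((F ×ˢ F) \ P).card : ℝ) ≤ e := by
    rw [← Real.sqrt_sq c.e0]; exact Real.sqrt_le_sqrt c.card
  have a2 : √(((F ×ˢ F) \ P).card : ℝ) * fr F L ≤ e * l :=
    mul_le_mul h3 hl (fr_nonneg _ _) c.e0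
  -- (b)
  have b1 := sum_om_abs_le c (fun a b => (mo1 A a b - 1) * L b a)
  have b2 : ∑ p ∈ P, |(mo1 A p.1 p.2 - 1) * L p.2 p.1| ≤ 2 * ((t + s ^ 2) * l) := by
    have k := sum_tau_le c (fun a b => L b a)
    rw [sw] at k
    have k2 : (t + s ^ 2) * fr F L ≤ (t + s ^ 2) * l :=
      mul_le_mul_of_nonneg_left hl hts
    refine le_trans ?_ (mul_le_mul_of_nonneg_left (k.trans k2) (by norm_num : (0:ℝ) ≤ 2))
    rw [Finset.mul_sum]
    refine Finset.sum_le_sum fun p hp => ?_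
    rw [abs_mul]
    have := (c.ok p hp).2.1.abs_off_sub_one
    have := mul_le_mul_of_nonneg_right this (abs_nonneg (L p.2 p.1))
    unfold mo1
    linarith
  -- (c)
  have c1 := prod_sum c (fun a => L a a) (fun a => A a a)
  have c2 : e * (nr F (fun a => L a a) * nr F (fun a => A a a)) ≤ e * (ld * s) :=
    mul_le_mul_of_nonneg_left (mul_le_mul hd c.sA (nr_nonneg _ _) hd0) c.e0
  have c3 : rh * (nr g (fun a => L a a) * nr g (fun a => A a a)) ≤ rh * (lg * s) := by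
    refine mul_le_mul_of_nonneg_left (mul_le_mul hlg ?_ (nr_nonneg _ _)
      ((nr_nonneg _ _).trans hlg)) c.rh0
    refine le_trans ?_ c.sA
    unfold nr
    exact Real.sqrt_le_sqrt (Finset.sum_le_sum_of_subset_of_nonneg c.gF fun _ _ _ => sq_nonneg _)
  -- (d)
  have d1 := sum_om_abs_le c (fun a b => ((al A a b)⁻¹ - 1) * (L a a * A b b))
  have d2 : ∑ p ∈ P, |((al A p.1 p.2)⁻¹ - 1) * (L p.1 p.1 * A p.2 p.2)|
      ≤ 4 * ((t + s ^ 2) * (ld * s)) := by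
    have k := sum_tau_le c (fun a b => (fun a => L a a) a * (fun a => A a a) b)
    rw [fr_prod] at k
    have k2 : (t + s ^ 2) * (nr F (fun a => L a a) * nr F (fun a => A a a))
        ≤ (t + s ^ 2) * (ld * s) :=
      mul_le_mul_of_nonneg_left (mul_le_mul hd c.sA (nr_nonneg _ _) hd0) hts
    refine le_trans ?_ (mul_le_mul_of_nonneg_left (k.trans k2) (by norm_num : (0:ℝ) ≤ 4))
    rw [Finset.mul_sum]
    refine Finset.sum_le_sum fun p hp => ?_
    rw [abs_mul]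
    have := (c.ok p hp).2.1.abs_inv_sub_one
    have := mul_le_mul_of_nonneg_right this (abs_nonneg (L p.1 p.1 * A p.2 p.2))
    linarith
  -- assembly
  have e1 : ∑ p ∈ P, (1 - h p.1 p.2) * uu A C p.1 p.2
      = ∑ p ∈ P, L p.2 p.1 - ∑ p ∈ P, h p.1 p.2 * L p.2 p.1
        + ∑ p ∈ P, (1 - h p.1 p.2) * ((mo1 A p.1 p.2 - 1) * L p.2 p.1)
        + ∑ p ∈ P, (1 - h p.1 p.2) * (L p.1 p.1 * A p.2 p.2)
        + ∑ p ∈ P, (1 - h p.1 p.2) * (((al A p.1 p.2)⁻¹ - 1) * (L p.1 p.1 * A p.2 p.2)) := by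
    rw [← Finset.sum_sub_distrib, ← Finset.sum_add_distrib, ← Finset.sum_add_distrib,
      ← Finset.sum_add_distrib]
    refine Finset.sum_congr rfl fun p _ => ?_
    unfold uu
    rw [rq_eq, ← hL]
    ring
  rw [e1]
  have m1 : |(∑ a ∈ F, L a a) * ∑ b ∈ F, A b b|
      = |∑ a ∈ F, A a a| * |∑ a ∈ F, L a a| := by rw [abs_mul, mul_comm]
  have m2 := abs_le.1 m1.le
  rw [abs_le] at a1 hh b1 c1 d1 ⊢
  constructor
  · linarith [a1.1, hh.2, b1.1, c1.1, d1.1, m2.1]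
  · linarith [a1.2, hh.1, b1.2, c1.2, d1.2, m2.2]

end Vale.Agent.P049.TS.Wd
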