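import Vale.Agent.P049.TS.W.Lin

/-!
Block W, part 4: the bilinear main terms `tt`, `(AX)(XC)`, the removal term and the positive terms.
-/

set_option linter.unusedSectionVars false

namespace Vale.Agent.P049.TS.Wd

open Matrix Finset D12

variable {ι : Type*} [Fintype ι] [DecidableEq ι]
variable {F g : Finset ι} {A C h : Matrix ι ι ℝ} {P : Finset (ι × ι)} {t s e rh G Hr : ℝ}

theorem tt_scalar {mA mC rA rC rC' τA τC qA qC pC X0 X1 Yb Yo Yo' Ya : ℝ}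
    (h1 : |mA - 1| ≤ 2 * τA) (h2 : |mC - 1| ≤ 2 * τC) (h3 : |mA| ≤ 9 / 5) (h4 : |mC| ≤ 9 / 5)
    (h5 : |rA| ≤ 8 / 5 * |qA|) (h6 : |rC| ≤ 8 / 5 * |qC|) (h7 : |rC'| ≤ 8 / 5 * |pC|) :
    |X0 * (mA * (mC * Yb + rC * Yo) + rA * (mC * Yo' + rC * Ya))
      + X1 * (mA * (mC * Yo + rC' * Yb) + rA * (mC * Ya + rC' * Yo')) - X0 * Yb|
    ≤ 18 / 5 * (τA * |X0 * Yb|) + 2 * (τC * |X0 * Yb|)
      + 72 / 25 * (|X0 * qC| * |Yo|) + 72 / 25 * (|X0 * qA| * |Yo'|)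
      + 72 / 25 * (|pC * Yb| * |X1|) + 72 / 25 * (|Ya * qA| * |X1|)
      + 64 / 25 * (|X0 * qA| * |Ya * qC|) + 81 / 25 * (|X1| * |Yo|)
      + 64 / 25 * (|qA| * |pC| * (|X1| * |Yo'|)) := by
  have e : X0 * (mA * (mC * Yb + rC * Yo) + rA * (mC * Yo' + rC * Ya))
      + X1 * (mA * (mC * Yo + rC' * Yb) + rA * (mC * Ya + rC' * Yo')) - X0 * Yb
      = ((mA - 1) * mC + (mC - 1)) * (X0 * Yb) + (mA * rC) * (X0 * Yo) + (rA * mC) * (X0 * Yo')
        + (rA * rC) * (X0 * Ya) + (mA * mC) * (X1 * Yo) + (mA * rC') * (X1 * Yb)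
        + (rA * mC) * (X1 * Ya) + (rA * rC') * (X1 * Yo') := by ring
  have t8 : ∀ a b c d e f g k : ℝ, |a + b + c + d + e + f + g + k|
      ≤ |a| + |b| + |c| + |d| + |e| + |f| + |g| + |k| := by
    intro a b c d e f g k
    have := abs_add_le (a + b + c + d + e + f + g) k
    have := abs_add_le (a + b + c + d + e + f) g
    have := abs_add_le (a + b + c + d + e) f
    have := abs_add_le (a + b + c + d) e
    have := abs_add_le (a + b + c) d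
    have := abs_add_le (a + b) c
    have := abs_add_le a b
    linarith
  rw [e]
  refine (t8 _ _ _ _ _ _ _ _).trans ?_
  have g1 : |(mA - 1) * mC + (mC - 1)| ≤ 18 / 5 * τA + 2 * τC := by
    refine (abs_add_le _ _).trans ?_
    rw [abs_mul]
    have : |mA - 1| * |mC| ≤ 2 * τA * (9 / 5) :=
      mul_le_mul h1 h4 (abs_nonneg _) ((abs_nonneg _).trans h1)
    linarith
  have g2 : |mA * rC| ≤ 72 / 25 * |qC| := by
    rw [abs_mul]
    have : |mA| * |rC| ≤ 9 / 5 * (8 / 5 * |qC|) :=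
      mul_le_mul h3 h6 (abs_nonneg _) (by norm_num)
    linarith
  have g3 : |rA * mC| ≤ 72 / 25 * |qA| := by
    rw [abs_mul]
    have : |rA| * |mC| ≤ 8 / 5 * |qA| * (9 / 5) :=
      mul_le_mul h5 h4 (abs_nonneg _) (by positivity)
    linarith
  have g4 : |rA * rC| ≤ 64 / 25 * (|qA| * |qC|) := by
    rw [abs_mul]
    have : |rA| * |rC| ≤ 8 / 5 * |qA| * (8 / 5 * |qC|) :=
      mul_le_mul h5 h6 (abs_nonneg _) (by positivity)
    linarith
  have g5 : |mA * mC| ≤ 81 / 25 := by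
    rw [abs_mul]
    have : |mA| * |mC| ≤ 9 / 5 * (9 / 5) := mul_le_mul h3 h4 (abs_nonneg _) (by norm_num)
    linarith
  have g6 : |mA * rC'| ≤ 72 / 25 * |pC| := by
    rw [abs_mul]
    have : |mA| * |rC'| ≤ 9 / 5 * (8 / 5 * |pC|) :=
      mul_le_mul h3 h7 (abs_nonneg _) (by norm_num)
    linarith
  have g7 : |rA * rC'| ≤ 64 / 25 * (|qA| * |pC|) := by
    rw [abs_mul]
    have : |rA| * |rC'| ≤ 8 / 5 * |qA| * (8 / 5 * |pC|) :=
      mul_le_mul h5 h7 (abs_nonneg _) (by positivity)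
    linarith
  have k1 := mul_le_mul_of_nonneg_right g1 (abs_nonneg (X0 * Yb))
  have k2 := mul_le_mul_of_nonneg_right g2 (abs_nonneg (X0 * Yo))
  have k3 := mul_le_mul_of_nonneg_right g3 (abs_nonneg (X0 * Yo'))
  have k4 := mul_le_mul_of_nonneg_right g4 (abs_nonneg (X0 * Ya))
  have k5 := mul_le_mul_of_nonneg_right g5 (abs_nonneg (X1 * Yo))
  have k6 := mul_le_mul_of_nonneg_right g6 (abs_nonneg (X1 * Yb))
  have k7 := mul_le_mul_of_nonneg_right g3 (abs_nonneg (X1 * Ya))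
  have k8 := mul_le_mul_of_nonneg_right g7 (abs_nonneg (X1 * Yo'))
  simp only [← abs_mul] at k1 k2 k3 k4 k5 k6 k7 k8
  simp only [abs_mul] at k1 k2 k3 k4 k5 k6 k7 k8 ⊢
  linarith

/-- Cauchy–Schwarz with bounds -/
theorem cs2 (hP : P ⊆ F ×ˢ F) (f k : ι → ι → ℝ) {x y : ℝ} (hf : fr F f ≤ x) (hk : fr F k ≤ y) :
    ∑ p ∈ P, |f p.1 p.2| * |k p.1 p.2| ≤ x * y :=
  (D12.sum_abs_mul_le hP f k).trans (mul_le_mul hf hk (fr_nonneg _ _) ((fr_nonneg _ _).trans hf))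

theorem fr_prod_le (u v : ι → ℝ) {x y : ℝ} (hu : nr F u ≤ x) (hv : nr F v ≤ y) :
    fr F (fun a b => u a * v b) ≤ x * y := by
  rw [fr_prod]
  exact mul_le_mul hu hv (nr_nonneg _ _) ((nr_nonneg _ _).trans hu)

theorem abs_le_nr (u : ι → ℝ) {a : ι} (ha : a ∈ F) {x : ℝ} (hu : nr F u ≤ x) : |u a| ≤ x := by
  refine le_trans ?_ hu
  unfold nr
  exact Real.abs_le_sqrt (Finset.single_le_sum (f := fun a => u a ^ 2)
    (fun _ _ => sq_nonneg _) ha)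

/-- **the bilinear first order term** -/
theorem sum_tt (c : Cx F g A C h P t s e rh G Hr) {x y xd yd xg yg : ℝ}
    (hx : fr F (Xm A C) ≤ x) (hy : fr F (Ym A C) ≤ y) (hxd : nr F (fun a => Xm A C a a) ≤ xd)
    (hyd : nr F (fun a => Ym A C a a) ≤ yd) (hxg : nr g (fun a => Xm A C a a) ≤ xg)
    (hyg : nr g (fun a => Ym A C a a) ≤ yg) :
    |∑ p ∈ P, (1 - h p.1 p.2) * tt A C p.1 p.2 - (∑ a ∈ F, Xm A C a a) * ∑ b ∈ F, Ym A C b b|
      ≤ e * (xd * yd) + rh * (xg * yg) + 42 / 5 * ((t + s ^ 2) * (xd * yd))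
        + 216 / 25 * (s * (xd * y + x * yd)) + 96 / 25 * (s ^ 2 * (xd * yd + x * y))
        + 243 / 50 * (x * y) := by
  set X := Xm A C with hX
  set Y := Ym A C with hY
  have hx0 : 0 ≤ x := (fr_nonneg _ _).trans hx
  have hy0 : 0 ≤ y := (fr_nonneg _ _).trans hy
  have hxd0 : 0 ≤ xd := (nr_nonneg _ _).trans hxd
  have hyd0 : 0 ≤ yd := (nr_nonneg _ _).trans hyd
  have hxg0 : 0 ≤ xg := (nr_nonneg _ _).trans hxg
  have hts : 0 ≤ t + s ^ 2 := add_nonneg c.t0 (sq_nonneg s)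
  have hs0 := c.s0
  have c1 := prod_sum c (fun a => X a a) (fun a => Y a a)
  have c2 : e * (nr F (fun a => X a a) * nr F (fun a => Y a a)) ≤ e * (xd * yd) :=
    mul_le_mul_of_nonneg_left (mul_le_mul hxd hyd (nr_nonneg _ _) hxd0) c.e0
  have c3 : rh * (nr g (fun a => X a a) * nr g (fun a => Y a a)) ≤ rh * (xg * yg) :=
    mul_le_mul_of_nonneg_left (mul_le_mul hxg hyg (nr_nonneg _ _) hxg0) c.rh0
  -- the error array
  set E : ι → ι → ℝ := fun a b => tt A C a b - X a a * Y b b with hE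
  have b1 := sum_om_abs_le c E
  have hpt : ∀ p ∈ P, |E p.1 p.2| ≤
      18 / 5 * ((|A p.1 p.2| + |A p.1 p.1 * A p.2 p.2|) * |X p.1 p.1 * Y p.2 p.2|)
      + 2 * ((|C p.1 p.2| + |C p.1 p.1 * C p.2 p.2|) * |X p.1 p.1 * Y p.2 p.2|)
      + 72 / 25 * (|X p.1 p.1 * C p.2 p.2| * |Y p.2 p.1|)
      + 72 / 25 * (|X p.1 p.1 * A p.2 p.2| * |Y p.1 p.2|)
      + 72 / 25 * (|C p.1 p.1 * Y p.2 p.2| * |X p.1 p.2|)
      + 72 / 25 * (|Y p.1 p.1 * A p.2 p.2| * |X p.1 p.2|)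
      + 64 / 25 * (|X p.1 p.1 * A p.2 p.2| * |Y p.1 p.1 * C p.2 p.2|)
      + 81 / 25 * (|X p.1 p.2| * |Y p.2 p.1|)
      + 64 / 25 * (s ^ 2 * (|X p.1 p.2| * |Y p.1 p.2|)) := by
    intro p hp
    obtain ⟨-, o1, o2⟩ := c.ok p hp
    have hm := Finset.mem_product.1 (c.sub hp)
    have o2' := PairOK.symm c.hC o2
    have r1 : ∀ {Z : Matrix ι ι ℝ} {a b : ι}, PairOK Z a b → |rq Z a b| ≤ 8 / 5 * |Z b b| := by
      intro Z a b ho
      unfold rq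
      rw [abs_mul, abs_of_pos (inv_pos.2 ho.al_pos)]
      exact mul_le_mul_of_nonneg_right ho.inv_le (abs_nonneg _)
    have k := tt_scalar (X0 := X p.1 p.1) (X1 := X p.1 p.2) (Yb := Y p.2 p.2) (Yo := Y p.2 p.1)
      (Yo' := Y p.1 p.2) (Ya := Y p.1 p.1) (mA := mo1 A p.1 p.2) (mC := mo1 C p.1 p.2)
      (rA := rq A p.1 p.2) (rC := rq C p.1 p.2) (rC' := rq C p.2 p.1) (qA := A p.2 p.2)
      (qC := C p.2 p.2) (pC := C p.1 p.1)
      o1.abs_off_sub_one o2.abs_off_sub_one o1.abs_off_le o2.abs_off_le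
      (r1 o1) (r1 o2) (r1 o2')
    have ks : |A p.2 p.2| * |C p.1 p.1| * (|X p.1 p.2| * |Y p.1 p.2|)
        ≤ s ^ 2 * (|X p.1 p.2| * |Y p.1 p.2|) := by
      refine mul_le_mul_of_nonneg_right ?_ (by positivity)
      rw [sq]
      exact mul_le_mul (abs_le_nr (fun a => A a a) hm.2 c.sA)
        (abs_le_nr (fun a => C a a) hm.1 c.sC) (abs_nonneg _) hs0
    have e0 : E p.1 p.2 = X p.1 p.1 * (mo1 A p.1 p.2 * (mo1 C p.1 p.2 * Y p.2 p.2
        + rq C p.1 p.2 * Y p.2 p.1) + rq A p.1 p.2 * (mo1 C p.1 p.2 * Y p.1 p.2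
        + rq C p.1 p.2 * Y p.1 p.1)) + X p.1 p.2 * (mo1 A p.1 p.2 * (mo1 C p.1 p.2 * Y p.2 p.1
        + rq C p.2 p.1 * Y p.2 p.2) + rq A p.1 p.2 * (mo1 C p.1 p.2 * Y p.1 p.1
        + rq C p.2 p.1 * Y p.1 p.2)) - X p.1 p.1 * Y p.2 p.2 := by
      rw [hE]
      rfl
    rw [e0]
    refine k.trans ?_
    linarith
  have hsum := Finset.sum_le_sum hpt
  -- the nine sums
  have swY : fr F (fun a b => Y b a) = fr F Y := fr_swap F Y
  have s1 : ∑ p ∈ P, (|A p.1 p.2| + |A p.1 p.1 * A p.2 p.2|) * |X p.1 p.1 * Y p.2 p.2|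
      ≤ (t + s ^ 2) * (xd * yd) :=
    (sum_tau_le c (fun a b => X a a * Y b b)).trans
      (mul_le_mul_of_nonneg_left (fr_prod_le (fun a => X a a) (fun a => Y a a) hxd hyd) hts)
  have s2 : ∑ p ∈ P, (|C p.1 p.2| + |C p.1 p.1 * C p.2 p.2|) * |X p.1 p.1 * Y p.2 p.2|
      ≤ (t + s ^ 2) * (xd * yd) :=
    (sum_tau_le c.swap (fun a b => X a a * Y b b)).trans
      (mul_le_mul_of_nonneg_left (fr_prod_le (fun a => X a a) (fun a => Y a a) hxd hyd) hts)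
  have s3 : ∑ p ∈ P, |X p.1 p.1 * C p.2 p.2| * |Y p.2 p.1| ≤ (xd * s) * y :=
    cs2 c.sub (fun a b => X a a * C b b) (fun a b => Y b a)
      (fr_prod_le (fun a => X a a) (fun a => C a a) hxd c.sC) (by rw [swY]; exact hy)
  have s4 : ∑ p ∈ P, |X p.1 p.1 * A p.2 p.2| * |Y p.1 p.2| ≤ (xd * s) * y :=
    cs2 c.sub (fun a b => X a a * A b b) (fun a b => Y a b)
      (fr_prod_le (fun a => X a a) (fun a => A a a) hxd c.sA) hy
  have s5 : ∑ p ∈ P, |C p.1 p.1 * Y p.2 p.2| * |X p.1 p.2| ≤ (s * yd) * x :=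
    cs2 c.sub (fun a b => C a a * Y b b) (fun a b => X a b)
      (fr_prod_le (fun a => C a a) (fun a => Y a a) c.sC hyd) hx
  have s6 : ∑ p ∈ P, |Y p.1 p.1 * A p.2 p.2| * |X p.1 p.2| ≤ (yd * s) * x :=
    cs2 c.sub (fun a b => Y a a * A b b) (fun a b => X a b)
      (fr_prod_le (fun a => Y a a) (fun a => A a a) hyd c.sA) hx
  have s7 : ∑ p ∈ P, |X p.1 p.1 * A p.2 p.2| * |Y p.1 p.1 * C p.2 p.2| ≤ (xd * s) * (yd * s) :=
    cs2 c.sub (fun a b => X a a * A b b) (fun a b => Y a a * C b b)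
      (fr_prod_le (fun a => X a a) (fun a => A a a) hxd c.sA)
      (fr_prod_le (fun a => Y a a) (fun a => C a a) hyd c.sC)
  have s8 : ∑ p ∈ P, |X p.1 p.2| * |Y p.2 p.1| ≤ x * y :=
    cs2 c.sub (fun a b => X a b) (fun a b => Y b a) hx (by rw [swY]; exact hy)
  have s9 : ∑ p ∈ P, |X p.1 p.2| * |Y p.1 p.2| ≤ x * y :=
    cs2 c.sub (fun a b => X a b) (fun a b => Y a b) hx hy
  have s9' := mul_le_mul_of_nonneg_left s9 (sq_nonneg s)
  simp only [Finset.sum_add_distrib, ← Finset.mul_sum] at hsum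
  have e1 : ∑ p ∈ P, (1 - h p.1 p.2) * tt A C p.1 p.2
      = ∑ p ∈ P, (1 - h p.1 p.2) * (X p.1 p.1 * Y p.2 p.2)
        + ∑ p ∈ P, (1 - h p.1 p.2) * E p.1 p.2 := by
    rw [← Finset.sum_add_distrib]
    refine Finset.sum_congr rfl fun p _ => ?_
    simp only [hE]
    ring
  rw [e1]
  rw [abs_le] at b1 c1 ⊢
  constructor
  · linarith [b1.1, c1.1]
  · linarith [b1.2, c1.2]

/-- **the product term `(AX)_aa (XC)_bb`** -/
theorem sum_PQ (c : Cx F g A C h P t s e rh G Hr) (M N : Matrix ι ι ℝ) {x y xd yd xg yg : ℝ}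
    (hx : fr F M ≤ x) (hy : fr F N ≤ y) (hxd : nr F (fun a => M a a) ≤ xd)
    (hyd : nr F (fun a => N a a) ≤ yd) (hxg : nr g (fun a => M a a) ≤ xg)
    (hyg : nr g (fun a => N a a) ≤ yg) :
    |∑ p ∈ P, (1 - h p.1 p.2) * (M p.1 p.1 * N p.2 p.2 + M p.1 p.2 * N p.2 p.1)
      - (∑ a ∈ F, M a a) * ∑ b ∈ F, N b b|
      ≤ e * (xd * yd) + rh * (xg * yg) + 3 / 2 * (x * y) := by
  have hxd0 : 0 ≤ xd := (nr_nonneg _ _).trans hxd
  have hxg0 : 0 ≤ xg := (nr_nonneg _ _).trans hxg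
  have c1 := prod_sum c (fun a => M a a) (fun a => N a a)
  have c2 : e * (nr F (fun a => M a a) * nr F (fun a => N a a)) ≤ e * (xd * yd) :=
    mul_le_mul_of_nonneg_left (mul_le_mul hxd hyd (nr_nonneg _ _) hxd0) c.e0
  have c3 : rh * (nr g (fun a => M a a) * nr g (fun a => N a a)) ≤ rh * (xg * yg) :=
    mul_le_mul_of_nonneg_left (mul_le_mul hxg hyg (nr_nonneg _ _) hxg0) c.rh0
  have b1 := sum_om_abs_le c (fun a b => M a b * N b a)
  have sw : fr F (fun a b => N b a) = fr F N := fr_swap F N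
  have b2 : ∑ p ∈ P, |M p.1 p.2 * N p.2 p.1| ≤ x * y := by
    simp only [abs_mul]
    exact cs2 c.sub (fun a b => M a b) (fun a b => N b a) hx (by rw [sw]; exact hy)
  have e1 : ∑ p ∈ P, (1 - h p.1 p.2) * (M p.1 p.1 * N p.2 p.2 + M p.1 p.2 * N p.2 p.1)
      = ∑ p ∈ P, (1 - h p.1 p.2) * (M p.1 p.1 * N p.2 p.2)
        + ∑ p ∈ P, (1 - h p.1 p.2) * (M p.1 p.2 * N p.2 p.1) := by
    rw [← Finset.sum_add_distrib]
    exact Finset.sum_congr rfl fun p _ => by ring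
  rw [e1]
  rw [abs_le] at b1 c1 ⊢
  constructor
  · linarith [b1.1, c1.1]
  · linarith [b1.2, c1.2]

/-- the off-diagonal product term `(A²)_ab (XXᵀ)_ab` -/
theorem sum_off (c : Cx F g A C h P t s e rh G Hr) (M N : Matrix ι ι ℝ) {x y : ℝ}
    (hx : fr F M ≤ x) (hy : fr F N ≤ y) :
    |∑ p ∈ P, (1 - h p.1 p.2) * (M p.1 p.2 * N p.1 p.2)| ≤ 3 / 2 * (x * y) := by
  have b1 := sum_om_abs_le c (fun a b => M a b * N a b)
  have b2 : ∑ p ∈ P, |M p.1 p.2 * N p.1 p.2| ≤ x * y := by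
    simp only [abs_mul]
    exact cs2 c.sub (fun a b => M a b) (fun a b => N a b) hx hy
  linarith

/-- **the positive main term** `w_b |x_a|²` -/
theorem sum_pos_main (c : Cx F g A C h P t s e rh G Hr) (u v : ι → ℝ) (hu : ∀ a, 0 ≤ u a)
    (hv : ∀ a, 0 ≤ v a) (hg4 : ∀ b ∈ g, u b ≤ 4) :
    ∑ p ∈ P, (1 - h p.1 p.2) * (u p.2 * v p.1)
      ≤ (∑ b ∈ F, u b) * (∑ a ∈ F, v a) + 4 * Hr * ∑ a ∈ F, v a := by
  have e1 : ∑ p ∈ P, (1 - h p.1 p.2) * (u p.2 * v p.1)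
      ≤ ∑ p ∈ P, (u p.2 * v p.1 + |h p.1 p.2| * (4 * v p.1)) := by
    refine Finset.sum_le_sum fun p _ => ?_
    have h1 : -h p.1 p.2 * (u p.2 * v p.1) ≤ |h p.1 p.2| * (4 * v p.1) := by
      by_cases hz : h p.1 p.2 = 0
      · rw [hz]; simp
      · have h2 := hg4 _ (c.hg _ _ hz).2
        calc -h p.1 p.2 * (u p.2 * v p.1) ≤ |h p.1 p.2| * (u p.2 * v p.1) :=
              mul_le_mul_of_nonneg_right (neg_le_abs _) (mul_nonneg (hu _) (hv _))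
          _ ≤ |h p.1 p.2| * (4 * v p.1) :=
              mul_le_mul_of_nonneg_left (mul_le_mul_of_nonneg_right h2 (hv _)) (abs_nonneg _)
    linarith
  refine e1.trans ?_
  have e2 : ∑ p ∈ P, (u p.2 * v p.1 + |h p.1 p.2| * (4 * v p.1))
      ≤ ∑ p ∈ F ×ˢ F, (u p.2 * v p.1 + |h p.1 p.2| * (4 * v p.1)) :=
    Finset.sum_le_sum_of_subset_of_nonneg c.sub fun p _ _ =>
      add_nonneg (mul_nonneg (hu _) (hv _))
        (mul_nonneg (abs_nonneg _) (mul_nonneg (by norm_num) (hv _)))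
  refine e2.trans ?_
  rw [Finset.sum_add_distrib, sum_prod_full' F u v]
  refine add_le_add le_rfl ?_
  rw [Finset.sum_product, Finset.mul_sum]
  refine Finset.sum_le_sum fun a ha => ?_
  simp only
  rw [← Finset.sum_mul]
  have := mul_le_mul_of_nonneg_right (c.row a ha) (mul_nonneg (by norm_num : (0:ℝ) ≤ 4) (hv a))
  linarith

/-- **the removal term** -/
theorem sum_removal (c : Cx F g A C h P t s e rh G Hr) (v : ι → ℝ) (hv : ∀ a, 0 ≤ v a) :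
    ((F.card : ℝ) - G - Hr) * ∑ a ∈ F, v a ≤ ∑ p ∈ P, (1 - h p.1 p.2) * v p.1 := by
  classical
  -- full sum
  have f1 : ∑ p ∈ F ×ˢ F, v p.1 = (F.card : ℝ) * ∑ a ∈ F, v a := by
    rw [Finset.sum_product, Finset.mul_sum]
    exact Finset.sum_congr rfl fun a _ => by simp [nsmul_eq_mul]
  have f2 : ∑ p ∈ P, v p.1 = ∑ p ∈ F ×ˢ F, v p.1 - ∑ p ∈ (F ×ˢ F) \ P, v p.1 := by
    rw [← Finset.sum_sdiff c.sub]; ring
  have f3 : ∑ p ∈ (F ×ˢ F) \ P, v p.1 ≤ G * ∑ a ∈ F, v a := by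
    have hm : ∀ p ∈ (F ×ˢ F) \ P, p.1 ∈ F := fun p hp =>
      (Finset.mem_product.1 (Finset.mem_sdiff.1 hp).1).1
    rw [← Finset.sum_fiberwise_of_maps_to hm, Finset.mul_sum]
    refine Finset.sum_le_sum fun a ha => ?_
    rw [Finset.sum_congr rfl (fun p hp => by rw [(Finset.mem_filter.1 hp).2] :
      ∀ p ∈ ((F ×ˢ F) \ P).filter (fun p => p.1 = a), v p.1 = v a), Finset.sum_const,
      nsmul_eq_mul]
    exact mul_le_mul_of_nonneg_right (c.deg a ha) (hv a)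
  have f4 : ∑ p ∈ P, h p.1 p.2 * v p.1 ≤ Hr * ∑ a ∈ F, v a := by
    calc ∑ p ∈ P, h p.1 p.2 * v p.1 ≤ ∑ p ∈ P, |h p.1 p.2| * v p.1 :=
          Finset.sum_le_sum fun p _ => mul_le_mul_of_nonneg_right (le_abs_self _) (hv _)
      _ ≤ ∑ p ∈ F ×ˢ F, |h p.1 p.2| * v p.1 :=
          Finset.sum_le_sum_of_subset_of_nonneg c.sub fun p _ _ =>
            mul_nonneg (abs_nonneg _) (hv _)
      _ = ∑ a ∈ F, (∑ b ∈ F, |h a b|) * v a := by
          rw [Finset.sum_product]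
          exact Finset.sum_congr rfl fun a _ => by rw [Finset.sum_mul]
      _ ≤ ∑ a ∈ F, Hr * v a :=
          Finset.sum_le_sum fun a ha => mul_le_mul_of_nonneg_right (c.row a ha) (hv a)
      _ = Hr * ∑ a ∈ F, v a := by rw [Finset.mul_sum]
  have e1 : ∑ p ∈ P, (1 - h p.1 p.2) * v p.1 = ∑ p ∈ P, v p.1 - ∑ p ∈ P, h p.1 p.2 * v p.1 := by
    rw [← Finset.sum_sub_distrib]
    exact Finset.sum_congr rfl fun p _ => by ring
  rw [e1, f2, f1]
  linarith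

end Vale.Agent.P049.TS.Wd
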