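import Vale.Agent.P049.TS.W.Ip

/-!
Block W, part 2: the pointwise inequality for `W = ‖A C‖_F²` under one join.

`A, C` symmetric, `X = A C - 1`.  Everything is expanded in rank one matrices.
-/

set_option linter.unusedSectionVars false

namespace Vale.Agent.P049.TS.Wd

open Matrix Finset

variable {ι : Type*} [Fintype ι] [DecidableEq ι]

/-- `X = A C - 1` -/
def Xm (A C : Matrix ι ι ℝ) : Matrix ι ι ℝ := A * C - 1

/-- `L = A² C Xᵀ` -/
def Lm (A C : Matrix ι ι ℝ) : Matrix ι ι ℝ := A * (A * C) * (Xm A C)ᵀ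

/-- `Y = A² C²` -/
def Ym (A C : Matrix ι ι ℝ) : Matrix ι ι ℝ := A * (A * C) * C

/-- `(1 - z) / al` -/
noncomputable def mo1 (Z : Matrix ι ι ℝ) (a b : ι) : ℝ := (al Z a b)⁻¹ * (1 - Z a b)

/-- `q / al` -/
noncomputable def rq (Z : Matrix ι ι ℝ) (a b : ι) : ℝ := (al Z a b)⁻¹ * Z b b

/-- the change of `A C` (before deleting rows and columns) -/
noncomputable def Dm (A C : Matrix ι ι ℝ) (a b : ι) : Matrix ι ι ℝ :=
  vecMulVec (ca A a b) (Xm A C a) + vecMulVec (ca A b a) (Xm A C b) +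
  vecMulVec (Xm C A a) (ca C a b) + vecMulVec (Xm C A b) (ca C b a) +
  Xm A C a a • vecMulVec (ca A a b) (ca C a b) + Xm A C a b • vecMulVec (ca A a b) (ca C b a) +
  Xm A C b a • vecMulVec (ca A b a) (ca C a b) + Xm A C b b • vecMulVec (ca A b a) (ca C b a)

/-- the main part of `Dm` -/
noncomputable def D0m (A C : Matrix ι ι ℝ) (a b : ι) : Matrix ι ι ℝ :=
  vecMulVec (A b) (Xm A C a) + vecMulVec (A a) (Xm A C b) +
  vecMulVec (Xm C A a) (C b) + vecMulVec (Xm C A b) (C a)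

variable {A C Z : Matrix ι ι ℝ} {a b : ι}

theorem Xm_transpose (hA : A.IsSymm) (hC : C.IsSymm) : (Xm A C)ᵀ = Xm C A := by
  unfold Xm
  rw [Matrix.transpose_sub, Matrix.transpose_mul, hA.eq, hC.eq, Matrix.transpose_one]

theorem Xm_apply_comm (hA : A.IsSymm) (hC : C.IsSymm) (i j : ι) : Xm A C i j = Xm C A j i := by
  rw [← Xm_transpose hA hC, Matrix.transpose_apply]

theorem al_comm (hZ : Z.IsSymm) (a b : ι) : al Z b a = al Z a b := by
  unfold al
  rw [hZ.apply a b]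
  ring

theorem mo1_comm (hZ : Z.IsSymm) (a b : ι) : mo1 Z b a = mo1 Z a b := by
  unfold mo1
  rw [al_comm hZ, hZ.apply a b]

theorem cb_eq (hZ : Z.IsSymm) (a b : ι) : cb Z a b = ca Z b a := by
  ext i
  unfold cb ca
  rw [al_comm hZ, hZ.apply a b]
  ring

theorem ca_eq (a b : ι) : ca Z a b = mo1 Z a b • Z b + rq Z a b • Z a := by
  ext i
  simp only [ca, mo1, rq, Pi.add_apply, Pi.smul_apply, smul_eq_mul]
  ring

/-- the entries of the product of the updated matrices -/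
theorem upd_entries (hab : a ≠ b) (hA : A.IsSymm) (hC : C.IsSymm) (h : al A a b ≠ 0)
    (h' : al C a b ≠ 0) (i j : ι) :
    (upd A a b * upd C a b) i j
      = if i = a ∨ i = b ∨ j = a ∨ j = b then 0 else (A * C) i j + Dm A C a b i j := by
  split_ifs with hij
  · rw [Matrix.mul_apply]
    refine Finset.sum_eq_zero fun k _ => ?_
    rcases hij with h1 | h1 | h1 | h1
    · have : upd A a b i k = 0 := by simp [upd, h1]
      rw [this, zero_mul]
    · have : upd A a b i k = 0 := by simp [upd, h1]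
      rw [this, zero_mul]
    · have : upd C a b k j = 0 := by simp [upd, h1]
      rw [this, mul_zero]
    · have : upd C a b k j = 0 := by simp [upd, h1]
      rw [this, mul_zero]
  · simp only [not_or] at hij
    rw [upd_mul_upd_apply hab hA h hC h' i j hij.1 hij.2.1 hij.2.2.1 hij.2.2.2, cb_eq hA, cb_eq hC]
    unfold Dm
    simp only [Matrix.add_apply, Matrix.smul_apply, Matrix.vecMulVec_apply, smul_eq_mul]
    rw [Xm_apply_comm hC hA a i, Xm_apply_comm hC hA b i]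
    unfold Xm
    ring

/-! ### scalars -/

/-- bound of `|ca Z a b|²` -/
noncomputable def al2 (Z : Matrix ι ι ℝ) (a b : ι) : ℝ :=
  13 / 2 * rw2 Z b + 26 / 5 * (Z b b ^ 2 * rw2 Z a)

/-- bound of `|ca Z a b - Z b|²` -/
noncomputable def be2 (Z : Matrix ι ι ℝ) (a b : ι) : ℝ :=
  16 * ((Z a b ^ 2 + (Z a a * Z b b) ^ 2) * rw2 Z b) + 26 / 5 * (Z b b ^ 2 * rw2 Z a)

theorem al2_nonneg (Z : Matrix ι ι ℝ) (a b : ι) : 0 ≤ al2 Z a b := by
  have := rw2_nonneg Z a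
  have := rw2_nonneg Z b
  unfold al2; positivity

theorem be2_nonneg (Z : Matrix ι ι ℝ) (a b : ι) : 0 ≤ be2 Z a b := by
  have := rw2_nonneg Z a
  have := rw2_nonneg Z b
  unfold be2; positivity

theorem PairOK.symm (hZ : Z.IsSymm) (h : PairOK Z a b) : PairOK Z b a := by
  unfold PairOK at h ⊢
  rw [hZ.apply a b, mul_comm (Z b b)]
  exact h

theorem dot_add_smul_le (u v : ι → ℝ) (x y : ℝ) :
    (x • u + y • v) ⬝ᵥ (x • u + y • v) ≤ 2 * x ^ 2 * (u ⬝ᵥ u) + 2 * y ^ 2 * (v ⬝ᵥ v) := by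
  have h := Mat.dot_self_nonneg (x • u - y • v)
  simp only [dotProduct_add, add_dotProduct, dotProduct_sub, sub_dotProduct, smul_dotProduct,
    dotProduct_smul, smul_eq_mul] at h ⊢
  nlinarith

theorem PairOK.mo1_sq_le (h : PairOK Z a b) : mo1 Z a b ^ 2 ≤ 81 / 25 := by
  have h1 := h.abs_off_le
  rw [← sq_abs]
  calc |mo1 Z a b| ^ 2 ≤ (9 / 5) ^ 2 := pow_le_pow_left₀ (abs_nonneg _) h1 2
    _ = _ := by norm_num

theorem PairOK.inv_sq_le (h : PairOK Z a b) : (al Z a b)⁻¹ ^ 2 ≤ 64 / 25 := by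
  have h1 := h.inv_le
  have h0 : 0 ≤ (al Z a b)⁻¹ := (inv_pos.2 h.al_pos).le
  calc (al Z a b)⁻¹ ^ 2 ≤ (8 / 5) ^ 2 := pow_le_pow_left₀ h0 h1 2
    _ = _ := by norm_num

theorem PairOK.rq_sq_le (h : PairOK Z a b) : rq Z a b ^ 2 ≤ 64 / 25 * Z b b ^ 2 := by
  unfold rq
  rw [mul_pow]
  exact mul_le_mul_of_nonneg_right (PairOK.inv_sq_le h) (sq_nonneg _)

theorem PairOK.mo1_sub_sq_le (h : PairOK Z a b) :
    (mo1 Z a b - 1) ^ 2 ≤ 8 * (Z a b ^ 2 + (Z a a * Z b b) ^ 2) := by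
  have h1 := h.abs_off_sub_one
  rw [← sq_abs, ← sq_abs (Z a b), ← sq_abs (Z a a * Z b b)]
  calc |mo1 Z a b - 1| ^ 2 ≤ (2 * (|Z a b| + |Z a a * Z b b|)) ^ 2 :=
        pow_le_pow_left₀ (abs_nonneg _) h1 2
    _ ≤ _ := by nlinarith [sq_nonneg (|Z a b| - |Z a a * Z b b|)]

theorem ca_sq_le (h : PairOK Z a b) : ca Z a b ⬝ᵥ ca Z a b ≤ al2 Z a b := by
  rw [ca_eq]
  refine (dot_add_smul_le _ _ _ _).trans ?_
  rw [← rw2_eq, ← rw2_eq]
  unfold al2
  have h1 := mul_le_mul_of_nonneg_right (PairOK.mo1_sq_le h) (rw2_nonneg Z b)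
  have h2 := mul_le_mul_of_nonneg_right (PairOK.rq_sq_le h) (rw2_nonneg Z a)
  have := rw2_nonneg Z b
  have := mul_nonneg (sq_nonneg (Z b b)) (rw2_nonneg Z a)
  nlinarith

theorem ca_sub_sq_le (h : PairOK Z a b) :
    (ca Z a b - Z b) ⬝ᵥ (ca Z a b - Z b) ≤ be2 Z a b := by
  have e : ca Z a b - Z b = (mo1 Z a b - 1) • Z b + rq Z a b • Z a := by
    rw [ca_eq]
    ext i
    simp only [Pi.sub_apply, Pi.add_apply, Pi.smul_apply, smul_eq_mul]
    ring
  rw [e]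
  refine (dot_add_smul_le _ _ _ _).trans ?_
  rw [← rw2_eq, ← rw2_eq]
  unfold be2
  have h1 := mul_le_mul_of_nonneg_right (PairOK.mo1_sub_sq_le h) (rw2_nonneg Z b)
  have h2 := mul_le_mul_of_nonneg_right (PairOK.rq_sq_le h) (rw2_nonneg Z a)
  have := rw2_nonneg Z b
  have := mul_nonneg (sq_nonneg (Z b b)) (rw2_nonneg Z a)
  nlinarith

theorem ca_self (hZ : Z.IsSymm) (h : al Z a b ≠ 0) : ca Z a b a = mo1 Z a b - 1 := by
  unfold ca mo1
  have hs : Z b a = Z a b := hZ.apply a b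
  field_simp
  rw [hs]
  unfold al
  ring

theorem ca_swap_self (hZ : Z.IsSymm) : ca Z b a a = rq Z b a := by
  unfold ca rq
  have hs : Z b a = Z a b := hZ.apply a b
  rw [hs]
  ring

/-! ### the linear term -/

/-- `⟨AC, α ⊗ x_a⟩` -/
noncomputable def uu (A C : Matrix ι ι ℝ) (a b : ι) : ℝ :=
  mo1 A a b * Lm A C b a + rq A a b * Lm A C a a

/-- `X_aa ⟨AC, α ⊗ α'⟩ + X_ab ⟨AC, α ⊗ β'⟩` -/
noncomputable def tt (A C : Matrix ι ι ℝ) (a b : ι) : ℝ :=
  Xm A C a a * (mo1 A a b * (mo1 C a b * Ym A C b b + rq C a b * Ym A C b a)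
    + rq A a b * (mo1 C a b * Ym A C a b + rq C a b * Ym A C a a))
  + Xm A C a b * (mo1 A a b * (mo1 C a b * Ym A C b a + rq C b a * Ym A C b b)
    + rq A a b * (mo1 C a b * Ym A C a a + rq C b a * Ym A C a b))

theorem ip_ca_left (K : Matrix ι ι ℝ) (v : ι → ℝ) :
    ip K (vecMulVec (ca A a b) v)
      = mo1 A a b * ip K (vecMulVec (A b) v) + rq A a b * ip K (vecMulVec (A a) v) := by
  rw [ca_eq, Matrix.add_vecMulVec, Matrix.smul_vecMulVec, Matrix.smul_vecMulVec, ip_add, ip_smul,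
    ip_smul]

theorem ip_ca_right (K : Matrix ι ι ℝ) (u : ι → ℝ) :
    ip K (vecMulVec u (ca C a b))
      = mo1 C a b * ip K (vecMulVec u (C b)) + rq C a b * ip K (vecMulVec u (C a)) := by
  rw [ca_eq, Matrix.vecMulVec_add, Matrix.vecMulVec_smul, Matrix.vecMulVec_smul, ip_add, ip_smul,
    ip_smul]

theorem Lm_comm (hA : A.IsSymm) (hC : C.IsSymm) (x y : ι) :
    (Xm C A * (A * C) * Cᵀ) x y = Lm C A y x := by
  have e : (Xm C A * (A * C) * Cᵀ)ᵀ = Lm C A := by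
    unfold Lm
    rw [Matrix.transpose_mul, Matrix.transpose_mul, Matrix.transpose_mul, hA.eq, hC.eq, hC.eq,
      Matrix.mul_assoc, Matrix.mul_assoc, Matrix.mul_assoc]
  rw [← e, Matrix.transpose_apply]

theorem ip_Dm (hA : A.IsSymm) (hC : C.IsSymm) (a b : ι) :
    ip (A * C) (Dm A C a b) = (uu A C a b + uu A C b a + uu C A a b + uu C A b a)
      + (tt A C a b + tt A C b a) := by
  unfold Dm
  simp only [ip_add, ip_smul, ip_ca_left, ip_ca_right, ip_vec]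
  rw [Lm_comm hA hC, Lm_comm hA hC, Lm_comm hA hC, Lm_comm hA hC]
  have e1 : A * (A * C) * (Xm A C)ᵀ = Lm A C := rfl
  have e2 : A * (A * C) * Cᵀ = Ym A C := by unfold Ym; rw [hC.eq]
  rw [e1, e2]
  unfold uu tt
  rw [mo1_comm hA a b, mo1_comm hC a b]
  ring

/-! ### the quadratic term -/

theorem frob_D0m (hA : A.IsSymm) (hC : C.IsSymm) (a b : ι) :
    Mat.frob (D0m A C a b) =
      (rw2 A b * rw2 (Xm A C) a + rw2 A a * rw2 (Xm A C) b
        + rw2 C b * rw2 (Xm C A) a + rw2 C a * rw2 (Xm C A) b)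
      + 2 * ((A ^ 2) a b * (Xm A C * (Xm A C)ᵀ) a b + (C ^ 2) a b * (Xm C A * (Xm C A)ᵀ) a b)
      + 2 * ((A * Xm A C) a a * (Xm A C * C) b b + (A * Xm A C) b b * (Xm A C * C) a a
        + (A * Xm A C) a b * (Xm A C * C) b a + (A * Xm A C) b a * (Xm A C * C) a b) := by
  unfold D0m
  rw [frob_add, frob_add, frob_add, ip_add_left, ip_add_left, ip_add_left]
  simp only [frob_vec, ip_vec_vec, rw2_eq, row_dot]
  have hA2 : A * Aᵀ = A ^ 2 := by rw [hA.eq, sq]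
  have hC2 : C * Cᵀ = C ^ 2 := by rw [hC.eq, sq]
  have hX := Xm_transpose hA hC
  have hX' := Xm_transpose hC hA
  have e1 : A * (Xm C A)ᵀ = A * Xm A C := by rw [hX']
  have e2 : Xm A C * Cᵀ = Xm A C * C := by rw [hC.eq]
  have s1 : (A ^ 2) b a = (A ^ 2) a b := (Mat.IsSymm_pow hA 2).apply a b
  have s2 : (C ^ 2) b a = (C ^ 2) a b := (Mat.IsSymm_pow hC 2).apply a b
  have rA : ∀ x y, (A * Aᵀ) x y = (A ^ 2) x y := fun x y => by rw [hA2]
  have rC : ∀ x y, (C * Cᵀ) x y = (C ^ 2) x y := fun x y => by rw [hC2]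
  rw [e1, e2, hA2, hC2, s1, s2]
  ring

theorem frob_add8_le (M1 M2 M3 M4 M5 M6 M7 M8 : Matrix ι ι ℝ) :
    Mat.frob (M1 + M2 + M3 + M4 + M5 + M6 + M7 + M8) ≤ 8 * (Mat.frob M1 + Mat.frob M2
      + Mat.frob M3 + Mat.frob M4 + Mat.frob M5 + Mat.frob M6 + Mat.frob M7 + Mat.frob M8) := by
  unfold Mat.frob
  simp only [← Finset.sum_add_distrib, Finset.mul_sum]
  refine Finset.sum_le_sum fun i _ => Finset.sum_le_sum fun j _ => ?_
  simp only [Matrix.add_apply]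
  have := Finset.sum_mul_sq_le_sq_mul_sq Finset.univ (fun _ : Fin 8 => (1 : ℝ))
    ![M1 i j, M2 i j, M3 i j, M4 i j, M5 i j, M6 i j, M7 i j, M8 i j]
  simp [Fin.sum_univ_succ] at this
  linarith

/-- the crude bound of the main part -/
theorem frob_D0m_le (a b : ι) :
    Mat.frob (D0m A C a b) ≤ 4 * (rw2 A b * rw2 (Xm A C) a + rw2 A a * rw2 (Xm A C) b
        + rw2 C b * rw2 (Xm C A) a + rw2 C a * rw2 (Xm C A) b) := by
  have h : ∀ M1 M2 M3 M4 : Matrix ι ι ℝ, Mat.frob (M1 + M2 + M3 + M4)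
      ≤ 4 * (Mat.frob M1 + Mat.frob M2 + Mat.frob M3 + Mat.frob M4) := by
    intro M1 M2 M3 M4
    unfold Mat.frob
    rw [← Finset.sum_add_distrib, ← Finset.sum_add_distrib, ← Finset.sum_add_distrib,
      Finset.mul_sum]
    refine Finset.sum_le_sum fun i _ => ?_
    rw [← Finset.sum_add_distrib, ← Finset.sum_add_distrib, ← Finset.sum_add_distrib,
      Finset.mul_sum]
    refine Finset.sum_le_sum fun j _ => ?_
    simp only [Matrix.add_apply]
    nlinarith [sq_nonneg (M1 i j - M2 i j), sq_nonneg (M1 i j - M3 i j),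
      sq_nonneg (M1 i j - M4 i j), sq_nonneg (M2 i j - M3 i j), sq_nonneg (M2 i j - M4 i j),
      sq_nonneg (M3 i j - M4 i j)]
  refine (h _ _ _ _).trans (le_of_eq ?_)
  simp only [frob_vec, ← rw2_eq]
  ring

/-- bound of `‖D - D₀‖²` -/
noncomputable def RB (A C : Matrix ι ι ℝ) (a b : ι) : ℝ :=
  be2 A a b * rw2 (Xm A C) a + be2 A b a * rw2 (Xm A C) b
  + be2 C a b * rw2 (Xm C A) a + be2 C b a * rw2 (Xm C A) b
  + (Xm A C a a ^ 2 * (al2 A a b * al2 C a b) + Xm A C a b ^ 2 * (al2 A a b * al2 C b a)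
  + (Xm A C b b ^ 2 * (al2 A b a * al2 C b a) + Xm A C b a ^ 2 * (al2 A b a * al2 C a b)))

theorem frob_R_le (hA : A.IsSymm) (hC : C.IsSymm) (h : PairOK A a b) (h' : PairOK C a b) :
    Mat.frob (Dm A C a b - D0m A C a b) ≤ 8 * RB A C a b := by
  have e : Dm A C a b - D0m A C a b
      = vecMulVec (ca A a b - A b) (Xm A C a) + vecMulVec (ca A b a - A a) (Xm A C b)
        + vecMulVec (Xm C A a) (ca C a b - C b) + vecMulVec (Xm C A b) (ca C b a - C a)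
        + Xm A C a a • vecMulVec (ca A a b) (ca C a b)
        + Xm A C a b • vecMulVec (ca A a b) (ca C b a)
        + Xm A C b a • vecMulVec (ca A b a) (ca C a b)
        + Xm A C b b • vecMulVec (ca A b a) (ca C b a) := by
    ext i j
    simp only [Dm, D0m, Matrix.sub_apply, Matrix.add_apply, Matrix.smul_apply,
      Matrix.vecMulVec_apply, Pi.sub_apply, smul_eq_mul]
    ring
  rw [e]
  refine (frob_add8_le _ _ _ _ _ _ _ _).trans (mul_le_mul_of_nonneg_left ?_ (by norm_num))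
  have hs := PairOK.symm hA h
  have hs' := PairOK.symm hC h'
  have k1 := ca_sub_sq_le h
  have k2 := ca_sub_sq_le hs
  have k3 := ca_sub_sq_le h'
  have k4 := ca_sub_sq_le hs'
  have j1 := ca_sq_le h
  have j2 := ca_sq_le hs
  have j3 := ca_sq_le h'
  have j4 := ca_sq_le hs'
  have n1 := Mat.dot_self_nonneg (ca A a b)
  have n2 := Mat.dot_self_nonneg (ca A b a)
  have n3 := Mat.dot_self_nonneg (ca C a b)
  have n4 := Mat.dot_self_nonneg (ca C b a)
  have o1 := al2_nonneg A a b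
  have o2 := al2_nonneg A b a
  simp only [frob_smul, frob_vec, ← rw2_eq (Xm A C), ← rw2_eq (Xm C A)]
  unfold RB
  have p1 := mul_le_mul_of_nonneg_right k1 (rw2_nonneg (Xm A C) a)
  have p2 := mul_le_mul_of_nonneg_right k2 (rw2_nonneg (Xm A C) b)
  have p3 := mul_le_mul_of_nonneg_left k3 (rw2_nonneg (Xm C A) a)
  have p4 := mul_le_mul_of_nonneg_left k4 (rw2_nonneg (Xm C A) b)
  have p5 := mul_le_mul_of_nonneg_left (mul_le_mul j1 j3 n3 o1) (sq_nonneg (Xm A C a a))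
  have p6 := mul_le_mul_of_nonneg_left (mul_le_mul j1 j4 n4 o1) (sq_nonneg (Xm A C a b))
  have p7 := mul_le_mul_of_nonneg_left (mul_le_mul j2 j3 n3 o2) (sq_nonneg (Xm A C b a))
  have p8 := mul_le_mul_of_nonneg_left (mul_le_mul j2 j4 n4 o2) (sq_nonneg (Xm A C b b))
  linarith

/-- bound of the square of row `a` of `D` -/
noncomputable def rho (A C : Matrix ι ι ℝ) (a b : ι) : ℝ :=
  8 * ((A a b ^ 2 + (A a a * A b b) ^ 2) * rw2 (Xm A C) a)
  + 64 / 25 * (A a a ^ 2 * rw2 (Xm A C) b)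
  + 81 / 25 * (Xm A C a a ^ 2 * al2 C a b + Xm A C a b ^ 2 * al2 C b a)
  + 64 / 25 * (A a a ^ 2 * (Xm A C b a ^ 2 * al2 C a b + Xm A C b b ^ 2 * al2 C b a))

theorem rw2_Dm_le (hA : A.IsSymm) (hC : C.IsSymm) (h : PairOK A a b) (h' : PairOK C a b) :
    rw2 (Dm A C a b) a ≤ 6 * rho A C a b := by
  have hx : ∀ j, Dm A C a b a j = (mo1 A a b - 1) * Xm A C a j + rq A b a * Xm A C b j
      + (mo1 A a b * Xm A C a a) * ca C a b j + (mo1 A a b * Xm A C a b) * ca C b a j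
      + (rq A b a * Xm A C b a) * ca C a b j + (rq A b a * Xm A C b b) * ca C b a j := by
    intro j
    have e1 := ca_self hA h.al_ne
    have e2 : ca A b a a = rq A b a := ca_swap_self hA
    have e3 : Xm C A a a = Xm A C a a := Xm_apply_comm hC hA a a
    have e4 : Xm C A b a = Xm A C a b := Xm_apply_comm hC hA b a
    simp only [Dm, Matrix.add_apply, Matrix.smul_apply, Matrix.vecMulVec_apply, smul_eq_mul]
    rw [e1, e2, e3, e4]
    ring
  have h6 : ∀ x1 x2 x3 x4 x5 x6 : ℝ, (x1 + x2 + x3 + x4 + x5 + x6) ^ 2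
      ≤ 6 * (x1 ^ 2 + x2 ^ 2 + x3 ^ 2 + x4 ^ 2 + x5 ^ 2 + x6 ^ 2) := by
    intro x1 x2 x3 x4 x5 x6
    have := Finset.sum_mul_sq_le_sq_mul_sq Finset.univ (fun _ : Fin 6 => (1 : ℝ))
      ![x1, x2, x3, x4, x5, x6]
    simp [Fin.sum_univ_succ] at this
    linarith
  unfold rw2
  have hsum : ∑ j, Dm A C a b a j ^ 2 ≤ ∑ j, 6 * (((mo1 A a b - 1) * Xm A C a j) ^ 2
      + (rq A b a * Xm A C b j) ^ 2 + ((mo1 A a b * Xm A C a a) * ca C a b j) ^ 2
      + ((mo1 A a b * Xm A C a b) * ca C b a j) ^ 2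
      + ((rq A b a * Xm A C b a) * ca C a b j) ^ 2
      + ((rq A b a * Xm A C b b) * ca C b a j) ^ 2) := by
    refine Finset.sum_le_sum fun j _ => ?_
    rw [hx j]
    exact h6 _ _ _ _ _ _
  refine hsum.trans ?_
  rw [← Finset.mul_sum]
  refine mul_le_mul_of_nonneg_left ?_ (by norm_num)
  simp only [mul_pow, Finset.sum_add_distrib, ← Finset.mul_sum]
  have f1 : ∑ j, ca C a b j ^ 2 = ca C a b ⬝ᵥ ca C a b := by
    simp only [dotProduct, sq]
  have f2 : ∑ j, ca C b a j ^ 2 = ca C b a ⬝ᵥ ca C b a := by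
    simp only [dotProduct, sq]
  rw [f1, f2]
  have hs := PairOK.symm hA h
  have hs' := PairOK.symm hC h'
  have k1 := PairOK.mo1_sub_sq_le h
  have k2 := PairOK.rq_sq_le hs
  have k3 := PairOK.mo1_sq_le h
  have j3 := ca_sq_le h'
  have j4 := ca_sq_le hs'
  have n3 := Mat.dot_self_nonneg (ca C a b)
  have n4 := Mat.dot_self_nonneg (ca C b a)
  have x1 : 0 ≤ ∑ j, Xm A C a j ^ 2 := rw2_nonneg _ _
  have x2 : 0 ≤ ∑ j, Xm A C b j ^ 2 := rw2_nonneg _ _
  unfold rho rw2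
  have p1 := mul_le_mul_of_nonneg_right k1 x1
  have p2 := mul_le_mul_of_nonneg_right k2 x2
  have p3 : mo1 A a b ^ 2 * Xm A C a a ^ 2 * (ca C a b ⬝ᵥ ca C a b)
      ≤ 81 / 25 * Xm A C a a ^ 2 * al2 C a b :=
    mul_le_mul (mul_le_mul_of_nonneg_right k3 (sq_nonneg _)) j3 n3 (by positivity)
  have p4 : mo1 A a b ^ 2 * Xm A C a b ^ 2 * (ca C b a ⬝ᵥ ca C b a)
      ≤ 81 / 25 * Xm A C a b ^ 2 * al2 C b a :=
    mul_le_mul (mul_le_mul_of_nonneg_right k3 (sq_nonneg _)) j4 n4 (by positivity)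
  have p5 : rq A b a ^ 2 * Xm A C b a ^ 2 * (ca C a b ⬝ᵥ ca C a b)
      ≤ 64 / 25 * A a a ^ 2 * Xm A C b a ^ 2 * al2 C a b :=
    mul_le_mul (mul_le_mul_of_nonneg_right k2 (sq_nonneg _)) j3 n3 (by positivity)
  have p6 : rq A b a ^ 2 * Xm A C b b ^ 2 * (ca C b a ⬝ᵥ ca C b a)
      ≤ 64 / 25 * A a a ^ 2 * Xm A C b b ^ 2 * al2 C b a :=
    mul_le_mul (mul_le_mul_of_nonneg_right k2 (sq_nonneg _)) j4 n4 (by positivity)
  linarith

/-! ### symmetries of `D` -/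

theorem Dm_swap : Dm A C b a = Dm A C a b := by
  unfold Dm
  abel

theorem Dm_transpose (hA : A.IsSymm) (hC : C.IsSymm) : (Dm A C a b)ᵀ = Dm C A a b := by
  ext i j
  rw [Matrix.transpose_apply]
  simp only [Dm, Matrix.add_apply, Matrix.smul_apply, Matrix.vecMulVec_apply, smul_eq_mul]
  rw [Xm_apply_comm hC hA a a, Xm_apply_comm hC hA a b, Xm_apply_comm hC hA b a,
    Xm_apply_comm hC hA b b]
  ring

/-! ### the pointwise inequality -/

/-- the part which is used for `(A,C,a,b)`, `(A,C,b,a)`, `(C,A,a,b)`, `(C,A,b,a)` -/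
noncomputable def Phi4 (A C : Matrix ι ι ℝ) (δ : ℝ) (a b : ι) : ℝ :=
  -(1 - δ) * rw2 (A * C) a + 2 * uu A C a b + (1 + 4 * δ) * (rw2 A b * rw2 (Xm A C) a)
  + (A ^ 2) a b * (Xm A C * (Xm A C)ᵀ) a b
  + 8 * (1 + δ⁻¹) * (be2 A a b * rw2 (Xm A C) a) + 6 * δ⁻¹ * rho A C a b

/-- the part which is used for `(A,C,a,b)`, `(A,C,b,a)` -/
noncomputable def Psi2 (A C : Matrix ι ι ℝ) (δ : ℝ) (a b : ι) : ℝ :=
  ((A * C) a a ^ 2 + (A * C) a b ^ 2) + 2 * tt A C a b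
  + 2 * ((A * Xm A C) a a * (Xm A C * C) b b + (A * Xm A C) a b * (Xm A C * C) b a)
  + 8 * (1 + δ⁻¹) * (Xm A C a a ^ 2 * (al2 A a b * al2 C a b)
      + Xm A C a b ^ 2 * (al2 A a b * al2 C b a))

/-- **the pointwise inequality** -/
theorem W_pt (hab : a ≠ b) (hA : A.IsSymm) (hC : C.IsSymm) (h : PairOK A a b)
    (h' : PairOK C a b) {δ : ℝ} (hδ : 0 < δ) :
    Mat.frob (upd A a b * upd C a b) ≤ Mat.frob (A * C)
      + (Phi4 A C δ a b + Phi4 A C δ b a + Phi4 C A δ a b + Phi4 C A δ b a)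
      + (Psi2 A C δ a b + Psi2 A C δ b a) := by
  have hδi : 0 < δ⁻¹ := inv_pos.2 hδ
  have hs := PairOK.symm hA h
  have hs' := PairOK.symm hC h'
  have h1 := frob_restrict_le hab (A * C) (Dm A C a b) (upd A a b * upd C a b) hδ
    (upd_entries hab hA hC h.al_ne h'.al_ne)
  rw [ip_Dm hA hC] at h1
  -- the quadratic term
  have h2 := frob_add_le (D0m A C a b) (Dm A C a b - D0m A C a b) hδ
  rw [add_sub_cancel] at h2
  have h3 := frob_D0m hA hC a b
  have h4 := frob_D0m_le (A := A) (C := C) a b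
  have h5 := frob_R_le hA hC h h'
  have h6 : (1 + δ⁻¹) * Mat.frob (Dm A C a b - D0m A C a b) ≤ (1 + δ⁻¹) * (8 * RB A C a b) :=
    mul_le_mul_of_nonneg_left h5 (by positivity)
  have h7 := mul_le_mul_of_nonneg_left h4 hδ.le
  -- the rows and columns of `D`
  have r1 := rw2_Dm_le hA hC h h'
  have r2 := rw2_Dm_le hA hC hs hs'
  rw [Dm_swap] at r2
  have r3 := rw2_Dm_le hC hA h' h
  rw [← Dm_transpose hA hC] at r3
  have r4 := rw2_Dm_le hC hA hs' hs
  rw [Dm_swap, ← Dm_transpose hA hC] at r4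
  have r5 := mul_le_mul_of_nonneg_left (add_le_add (add_le_add (add_le_add r1 r2) r3) r4) hδi.le
  -- the rows and columns of `A C`
  have hT : (A * C)ᵀ = C * A := by rw [Matrix.transpose_mul, hA.eq, hC.eq]
  rw [hT] at h1
  -- the block
  have hblk : (1 - δ) * ((A * C) a a ^ 2 + (A * C) a b ^ 2 + (A * C) b a ^ 2 + (A * C) b b ^ 2)
      ≤ (A * C) a a ^ 2 + (A * C) a b ^ 2 + (A * C) b a ^ 2 + (A * C) b b ^ 2 := by
    have : 0 ≤ (A * C) a a ^ 2 + (A * C) a b ^ 2 + (A * C) b a ^ 2 + (A * C) b b ^ 2 := by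
      positivity
    nlinarith
  have sA : (A ^ 2) b a = (A ^ 2) a b := (Mat.IsSymm_pow hA 2).apply a b
  have sC : (C ^ 2) b a = (C ^ 2) a b := (Mat.IsSymm_pow hC 2).apply a b
  have sX : (Xm A C * (Xm A C)ᵀ) b a = (Xm A C * (Xm A C)ᵀ) a b := by
    have e : (Xm A C * (Xm A C)ᵀ)ᵀ = Xm A C * (Xm A C)ᵀ := by
      rw [Matrix.transpose_mul, Matrix.transpose_transpose]
    conv_lhs => rw [← e, Matrix.transpose_apply]
  have sX' : (Xm C A * (Xm C A)ᵀ) b a = (Xm C A * (Xm C A)ᵀ) a b := by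
    have e : (Xm C A * (Xm C A)ᵀ)ᵀ = Xm C A * (Xm C A)ᵀ := by
      rw [Matrix.transpose_mul, Matrix.transpose_transpose]
    conv_lhs => rw [← e, Matrix.transpose_apply]
  unfold Phi4 Psi2
  rw [sA, sC, sX, sX']
  unfold RB at h6
  linarith [h1, h2, h3, h6, h7, r5, hblk]

end Vale.Agent.P049.TS.Wd
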