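import Vale.Agent.P049.TS.W.Pt
import Vale.Agent.P049.TS.W.HT
import Vale.Agent.P049.TS.Drift.T12c

/-!
Block W: the weighted sum of the first order terms `uu`.
-/

set_option linter.unusedSectionVars false

namespace Vale.Agent.P049.TS.Wd

open Matrix Finset
open Vale.Agent.P049.TS.D12 (nr fr)

variable {ι : Type*} [Fintype ι] [DecidableEq ι]

variable {F : Finset ι} {A C : Matrix ι ι ℝ}

/-- the rows in `F` of a matrix -/
def rowF (F : Finset ι) (M : Matrix ι ι ℝ) : Matrix ι ι ℝ := fun i j => if i ∈ F then M i j else 0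

theorem frob_rowF (F : Finset ι) (M : Matrix ι ι ℝ) :
    Mat.frob (rowF F M) = ∑ a ∈ F, rw2 M a := by
  unfold Mat.frob rw2
  have : ∀ i, ∑ j, rowF F M i j ^ 2 = if i ∈ F then ∑ j, M i j ^ 2 else 0 := by
    intro i
    by_cases hi : i ∈ F <;> simp [rowF, hi]
  simp only [this, Finset.sum_ite_mem, Finset.univ_inter]

theorem mul_supp_right (sC : ∀ a, a ∉ F → ∀ b, C a b = 0) (hC : C.IsSymm) (M : Matrix ι ι ℝ)
    (i : ι) {j : ι} (hj : j ∉ F) : (M * C) i j = 0 := by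
  rw [Matrix.mul_apply]
  refine Finset.sum_eq_zero fun k _ => ?_
  rw [← hC.apply k j, sC j hj k, mul_zero]

theorem mul_supp_left (sA : ∀ a, a ∉ F → ∀ b, A a b = 0) (M : Matrix ι ι ℝ)
    {i : ι} (hi : i ∉ F) (j : ι) : (A * M) i j = 0 := by
  rw [Matrix.mul_apply]
  exact Finset.sum_eq_zero fun k _ => by rw [sA i hi k, zero_mul]

theorem Lm_eq_rowF (sA : ∀ a, a ∉ F → ∀ b, A a b = 0) (sC : ∀ a, a ∉ F → ∀ b, C a b = 0)
    (hC : C.IsSymm) : Lm A C = A * ((A * C) * (rowF F (Xm A C))ᵀ) := by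
  unfold Lm
  rw [Matrix.mul_assoc]
  congr 1
  ext i j
  rw [Matrix.mul_apply, Matrix.mul_apply]
  by_cases hj : j ∈ F
  · refine Finset.sum_congr rfl fun k _ => ?_
    simp [rowF, hj]
  · have h0 : ∑ k, (A * C) i k * (rowF F (Xm A C))ᵀ k j = 0 :=
      Finset.sum_eq_zero fun k _ => by simp [rowF, hj]
    rw [h0]
    have h1 : ∀ k, (Xm A C)ᵀ k j = -(1 : Matrix ι ι ℝ) j k := by
      intro k
      rw [Matrix.transpose_apply, Xm, Matrix.sub_apply, mul_supp_left sA C hj k, zero_sub]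
    simp only [h1, Matrix.one_apply, mul_neg, mul_ite, mul_one, mul_zero, Finset.sum_neg_distrib,
      Finset.sum_ite_eq, Finset.mem_univ, if_true]
    rw [mul_supp_right sC hC A i hj, neg_zero]

/-- `‖L‖ ≤ b cw x` -/
theorem frob_Lm_le (sA : ∀ a, a ∉ F → ∀ b, A a b = 0) (sC : ∀ a, a ∉ F → ∀ b, C a b = 0)
    (hC : C.IsSymm) {b cw x : ℝ} (oA : Mat.OpB A b) (hcw : Mat.frob (A * C) ≤ cw ^ 2)
    (hx : ∑ a ∈ F, rw2 (Xm A C) a ≤ x ^ 2) : Mat.frob (Lm A C) ≤ (b * cw * x) ^ 2 := by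
  rw [Lm_eq_rowF sA sC hC]
  refine (oA.frob_mul_le _).trans ?_
  have h1 := Mat.frob_mul_le (A * C) (rowF F (Xm A C))ᵀ
  rw [Mat.frob_transpose, frob_rowF] at h1
  have h2 : Mat.frob (A * C) * ∑ a ∈ F, rw2 (Xm A C) a ≤ cw ^ 2 * x ^ 2 :=
    mul_le_mul hcw hx (Finset.sum_nonneg fun _ _ => rw2_nonneg _ _) (sq_nonneg _)
  have h3 := mul_le_mul_of_nonneg_left (h1.trans h2) (sq_nonneg b)
  calc _ ≤ _ := h3
    _ = _ := by ring

/-- the column sums of `A C` -/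
theorem sum_mul_col (sA : ∀ a, a ∉ F → ∀ b, A a b = 0) (hA : A.IsSymm)
    (rA : ∀ a ∈ F, ∑ b, A a b = 1) (sC : ∀ a, a ∉ F → ∀ b, C a b = 0) (hC : C.IsSymm)
    (rC : ∀ a ∈ F, ∑ b, C a b = 1) {k : ι} (hk : k ∈ F) : ∑ a ∈ F, (A * C) a k = 1 := by
  have h1 : ∑ a ∈ F, (A * C) a k = ∑ a, (A * C) a k :=
    Finset.sum_subset (Finset.subset_univ F) fun a _ ha => mul_supp_left sA C ha k
  rw [h1]
  simp only [Matrix.mul_apply]
  rw [Finset.sum_comm]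
  have h2 : ∀ j, ∑ a, A a j * C j k = C k j := by
    intro j
    rw [← Finset.sum_mul, hC.apply k j]
    by_cases hj : j ∈ F
    · have : ∑ a, A a j = 1 := by
        rw [← rA j hj]
        exact Finset.sum_congr rfl fun a _ => hA.apply j a
      rw [this, one_mul]
    · rw [← hC.apply k j, sC j hj k, mul_zero]
  simp only [h2]
  exact rC k hk

/-- the row sums of `L` vanish -/
theorem sum_Lm_row (sA : ∀ a, a ∉ F → ∀ b, A a b = 0) (hA : A.IsSymm)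
    (rA : ∀ a ∈ F, ∑ b, A a b = 1) (sC : ∀ a, a ∉ F → ∀ b, C a b = 0) (hC : C.IsSymm)
    (rC : ∀ a ∈ F, ∑ b, C a b = 1) (i : ι) : ∑ a ∈ F, Lm A C i a = 0 := by
  unfold Lm
  simp only [Matrix.mul_apply (M := A * (A * C))]
  rw [Finset.sum_comm]
  refine Finset.sum_eq_zero fun k _ => ?_
  rw [← Finset.mul_sum]
  by_cases hk : k ∈ F
  · have h1 := sum_mul_col sA hA rA sC hC rC hk
    have h2 : ∑ a ∈ F, (Xm A C)ᵀ k a = 0 := by
      simp only [Matrix.transpose_apply, Xm, Matrix.sub_apply, Finset.sum_sub_distrib, h1,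
        Matrix.one_apply]
      rw [Finset.sum_ite_eq', if_pos hk, sub_self]
    rw [h2, mul_zero]
  · rw [show (A * (A * C)) i k = 0 from by
      rw [← Matrix.mul_assoc]; exact mul_supp_right sC hC _ i hk, zero_mul]

theorem sum_pairs_Lm (sA : ∀ a, a ∉ F → ∀ b, A a b = 0) (hA : A.IsSymm)
    (rA : ∀ a ∈ F, ∑ b, A a b = 1) (sC : ∀ a, a ∉ F → ∀ b, C a b = 0) (hC : C.IsSymm)
    (rC : ∀ a ∈ F, ∑ b, C a b = 1) : ∑ p ∈ F ×ˢ F, Lm A C p.2 p.1 = 0 := by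
  rw [Finset.sum_product_right]
  exact Finset.sum_eq_zero fun b _ => sum_Lm_row sA hA rA sC hC rC b

theorem fr_le_of_frob {M : Matrix ι ι ℝ} {y : ℝ} (hy : 0 ≤ y) (h : Mat.frob M ≤ y ^ 2) :
    fr F (fun a b => M a b) ≤ y := by
  unfold D12.fr
  rw [← Real.sqrt_sq hy]
  apply Real.sqrt_le_sqrt
  refine le_trans ?_ h
  have h1 : ∑ p ∈ F ×ˢ F, M p.1 p.2 ^ 2 ≤ ∑ p : ι × ι, M p.1 p.2 ^ 2 :=
    Finset.sum_le_sum_of_subset_of_nonneg (Finset.subset_univ _) fun _ _ _ => sq_nonneg _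
  refine h1.trans (le_of_eq ?_)
  rw [Mat.frob, Fintype.sum_prod_type]

theorem fr_swap_le_of_frob {M : Matrix ι ι ℝ} {y : ℝ} (hy : 0 ≤ y) (h : Mat.frob M ≤ y ^ 2) :
    fr F (fun a b => M b a) ≤ y := by
  have := fr_le_of_frob (F := F) (M := Mᵀ) hy (by rw [Mat.frob_transpose]; exact h)
  exact this

/-- `Σ_F |(M N)_aa| ≤ ‖M‖ ‖N_F‖` for the product with a transposed matrix -/
theorem sum_abs_diag_le {M N : Matrix ι ι ℝ} {y z : ℝ} (hy : 0 ≤ y) (hz : 0 ≤ z)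
    (hM : Mat.frob M ≤ y ^ 2) (hN : ∑ a ∈ F, rw2 N a ≤ z ^ 2) :
    ∑ a ∈ F, |(M * Nᵀ) a a| ≤ y * z := by
  have h1 : ∀ a, |(M * Nᵀ) a a| ≤ √(rw2 M a) * √(rw2 N a) := by
    intro a
    rw [← row_dot, rw2_eq, rw2_eq]
    exact Mat.abs_dot_le _ _
  have h2 := Real.sum_sqrt_mul_sqrt_le F (fun a => rw2_nonneg M a) (fun a => rw2_nonneg N a)
  refine (Finset.sum_le_sum fun a _ => h1 a).trans (h2.trans ?_)
  apply mul_le_mul
  · rw [← Real.sqrt_sq hy]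
    apply Real.sqrt_le_sqrt
    refine le_trans ?_ hM
    rw [← sum_rw2]
    exact Finset.sum_le_sum_of_subset_of_nonneg (Finset.subset_univ F) fun _ _ _ => rw2_nonneg _ _
  · rw [← Real.sqrt_sq hz]
    exact Real.sqrt_le_sqrt hN
  · exact Real.sqrt_nonneg _
  · exact hy

/-- **the first order terms** -/
theorem sum_uu80 {P : Finset (ι × ι)} {h : Matrix ι ι ℝ} {e rh b cw x t s ν : ℝ}
    (hA : A.IsSymm) (hC : C.IsSymm) (sA : ∀ a, a ∉ F → ∀ b, A a b = 0)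
    (sC : ∀ a, a ∉ F → ∀ b, C a b = 0) (rA : ∀ a ∈ F, ∑ b, A a b = 1)
    (rC : ∀ a ∈ F, ∑ b, C a b = 1) (hP : P ⊆ F ×ˢ F) (he : 0 ≤ e)
    (hE : (((F ×ˢ F) \ P).card : ℝ) ≤ e ^ 2) (hok : ∀ p ∈ P, PairOK A p.1 p.2)
    (hh : ∀ a b, (a, b) ∉ P → h a b = 0) (h2 : ∀ p ∈ P, |h p.1 p.2| ≤ 1 / 2)
    (hr : 0 ≤ rh) (ho : Mat.OpB h rh) (hb : 0 ≤ b) (hcw : 0 ≤ cw) (hx : 0 ≤ x) (ht : 0 ≤ t)
    (hs : 0 ≤ s) (hν : 0 ≤ ν) (oA : Mat.OpB A b) (fAC : Mat.frob (A * C) ≤ cw ^ 2)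
    (fX : ∑ a ∈ F, rw2 (Xm A C) a ≤ x ^ 2) (tA : Mat.frob A ≤ t ^ 2)
    (SA : ∑ a ∈ F, A a a ^ 2 ≤ s ^ 2) (hN : (F.card : ℝ) ≤ ν ^ 2) :
    |∑ p ∈ P, (1 - h p.1 p.2) * uu A C p.1 p.2| ≤
      (e + rh + 3 * (t + s ^ 2) + 12 / 5 * (ν * s)) * (b * cw * x) := by
  have hl : 0 ≤ b * cw * x := mul_nonneg (mul_nonneg hb hcw) hx
  have fL := frob_Lm_le sA sC hC oA fAC fX
  have kL : fr F (fun a b => Lm A C b a) ≤ b * cw * x := fr_swap_le_of_frob hl fL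
  -- the full sum
  have p1 := D12.abs_sum_adm_sub_le hP (fun a b => Lm A C b a)
  have e0 : ∑ p ∈ F ×ˢ F, (fun a b => Lm A C b a) p.1 p.2 = 0 :=
    sum_pairs_Lm sA hA rA sC hC rC
  rw [e0, sub_zero] at p1
  have k2 : √(((F ×ˢ F) \ P).card : ℝ) ≤ e := by
    rw [← Real.sqrt_sq he]; exact Real.sqrt_le_sqrt hE
  have p1' : |∑ p ∈ P, Lm A C p.2 p.1| ≤ e * (b * cw * x) :=
    p1.trans (mul_le_mul k2 kL (D12.fr_nonneg _ _) he)
  -- the tilt
  have p2 : |∑ p ∈ P, h p.1 p.2 * Lm A C p.2 p.1| ≤ rh * (b * cw * x) := by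
    have e1 : ∑ p ∈ P, h p.1 p.2 * Lm A C p.2 p.1 = (h * Lm A C).trace := by
      have e2 : (h * Lm A C).trace = ∑ p : ι × ι, h p.1 p.2 * Lm A C p.2 p.1 := by
        rw [Fintype.sum_prod_type]
        simp only [Matrix.trace, Matrix.diag_apply, Matrix.mul_apply]
      rw [e2]
      exact Finset.sum_subset (Finset.subset_univ P) fun p _ hp => by
        rw [hh p.1 p.2 hp, zero_mul]
    rw [e1, Lm_eq_rowF sA sC hC]
    have e3 : (h * (A * (A * C * (rowF F (Xm A C))ᵀ))).trace =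
        ((h * A * (A * C)) * (rowF F (Xm A C))ᵀ).trace := by
      simp only [Matrix.mul_assoc]
    rw [e3]
    refine (Mat.abs_trace_mul_le _ _).trans ?_
    rw [Mat.frob_transpose, frob_rowF]
    have f1 : Mat.frob (h * A * (A * C)) ≤ (rh * b * cw) ^ 2 := by
      refine ((ho.mul oA).frob_mul_le _).trans ?_
      have := mul_le_mul_of_nonneg_left fAC (sq_nonneg (rh * b))
      calc _ ≤ _ := this
        _ = _ := by ring
    have f2 : √(Mat.frob (h * A * (A * C))) ≤ rh * b * cw := by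
      rw [← Real.sqrt_sq (mul_nonneg (mul_nonneg hr hb) hcw)]
      exact Real.sqrt_le_sqrt f1
    have f3 : √(∑ a ∈ F, rw2 (Xm A C) a) ≤ x := by
      rw [← Real.sqrt_sq hx]
      exact Real.sqrt_le_sqrt fX
    calc _ ≤ (rh * b * cw) * x := mul_le_mul f2 f3 (Real.sqrt_nonneg _) (by positivity)
      _ = _ := by ring
  -- the small factor
  have p3 : |∑ p ∈ P, (1 - h p.1 p.2) * ((mo1 A p.1 p.2 - 1) * Lm A C p.2 p.1)| ≤
      3 * (t + s ^ 2) * (b * cw * x) := by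
    have q1 := D12.sum_weight_err_le (A := P) (h := h) h2
      (e := fun p => (mo1 A p.1 p.2 - 1) * Lm A C p.2 p.1)
      (g := fun p => 2 * ((|A p.1 p.2| + |A p.1 p.1 * A p.2 p.2|) * |Lm A C p.2 p.1|))
      (fun p hp => by
        rw [abs_mul]
        have := mul_le_mul_of_nonneg_right (hok p hp).abs_off_sub_one (abs_nonneg (Lm A C p.2 p.1))
        calc _ ≤ _ := this
          _ = _ := by ring)
    refine q1.trans ?_
    rw [← Finset.mul_sum]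
    have q2 := D12.sum_small_mul_le (Z := A) hP (fun a b => Lm A C b a)
    have q3 : fr F A ≤ t := fr_le_of_frob ht tA
    have q4 : nr F (fun a => A a a) ^ 2 ≤ s ^ 2 := by rw [D12.nr_sq]; exact SA
    have q5 : (fr F A + nr F (fun a => A a a) ^ 2) * fr F (fun a b => Lm A C b a) ≤
        (t + s ^ 2) * (b * cw * x) :=
      mul_le_mul (add_le_add q3 q4) kL (D12.fr_nonneg _ _) (by positivity)
    have q6 : ∑ p ∈ P, (|A p.1 p.2| + |A p.1 p.1 * A p.2 p.2|) * |Lm A C p.2 p.1| ≤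
        (t + s ^ 2) * (b * cw * x) := q2.trans q5
    linarith
  -- the diagonal part
  have p4 : |∑ p ∈ P, (1 - h p.1 p.2) * (rq A p.1 p.2 * Lm A C p.1 p.1)| ≤
      12 / 5 * (ν * s) * (b * cw * x) := by
    have q1 := D12.sum_weight_err_le (A := P) (h := h) h2
      (e := fun p => rq A p.1 p.2 * Lm A C p.1 p.1)
      (g := fun p => 8 / 5 * (|Lm A C p.1 p.1| * |A p.2 p.2|))
      (fun p hp => by
        rw [abs_mul, rq, abs_mul, abs_of_pos (inv_pos.2 (hok p hp).al_pos)]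
        have j1 := mul_le_mul_of_nonneg_right (hok p hp).inv_le
          (mul_nonneg (abs_nonneg (Lm A C p.1 p.1)) (abs_nonneg (A p.2 p.2)))
        calc _ = (al A p.1 p.2)⁻¹ * (|Lm A C p.1 p.1| * |A p.2 p.2|) := by ring
          _ ≤ _ := j1)
    refine q1.trans ?_
    rw [← Finset.mul_sum]
    have q2 : ∑ p ∈ P, |Lm A C p.1 p.1| * |A p.2 p.2| ≤
        (∑ a ∈ F, |Lm A C a a|) * ∑ b ∈ F, |A b b| := by
      rw [← D12.sum_prod_full F (fun a => |Lm A C a a|) (fun b => |A b b|)]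
      exact Finset.sum_le_sum_of_subset_of_nonneg hP fun _ _ _ =>
        mul_nonneg (abs_nonneg _) (abs_nonneg _)
    have q3 : ∑ a ∈ F, |Lm A C a a| ≤ (b * cw) * x := by
      unfold Lm
      refine sum_abs_diag_le (mul_nonneg hb hcw) hx ?_ fX
      refine (oA.frob_mul_le _).trans ?_
      rw [mul_pow]
      exact mul_le_mul_of_nonneg_left fAC (sq_nonneg b)
    have q4 : ∑ b ∈ F, |A b b| ≤ ν * s := by
      have j := Real.sum_mul_le_sqrt_mul_sqrt F (fun _ => (1 : ℝ)) (fun b => |A b b|)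
      simp only [one_mul, one_pow, Finset.sum_const, nsmul_eq_mul, mul_one, sq_abs] at j
      refine j.trans (mul_le_mul ?_ ?_ (Real.sqrt_nonneg _) hν)
      · rw [← Real.sqrt_sq hν]; exact Real.sqrt_le_sqrt hN
      · rw [← Real.sqrt_sq hs]; exact Real.sqrt_le_sqrt SA
    have q5 : (∑ a ∈ F, |Lm A C a a|) * ∑ b ∈ F, |A b b| ≤ (b * cw * x) * (ν * s) :=
      mul_le_mul q3 q4 (Finset.sum_nonneg fun _ _ => abs_nonneg _) hl
    linarith [q2.trans q5]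
  have hdec : ∑ p ∈ P, (1 - h p.1 p.2) * uu A C p.1 p.2 =
      ∑ p ∈ P, Lm A C p.2 p.1 - ∑ p ∈ P, h p.1 p.2 * Lm A C p.2 p.1 +
      ∑ p ∈ P, (1 - h p.1 p.2) * ((mo1 A p.1 p.2 - 1) * Lm A C p.2 p.1) +
      ∑ p ∈ P, (1 - h p.1 p.2) * (rq A p.1 p.2 * Lm A C p.1 p.1) := by
    rw [← Finset.sum_sub_distrib, ← Finset.sum_add_distrib, ← Finset.sum_add_distrib]
    refine Finset.sum_congr rfl fun p _ => ?_
    unfold uu
    ring
  rw [hdec]
  rw [abs_le] at p1' p2 p3 p4 ⊢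
  constructor
  · linarith [p1'.1, p2.2, p3.1, p4.1]
  · linarith [p1'.2, p2.1, p3.2, p4.2]

end Vale.Agent.P049.TS.Wd
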